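import Mathlib

/-! Expected values along random walks driven by fair bits; repetition of a walk with a counter;
the Chebyshev bound. -/

namespace Vale.Agent.N313

open Finset

variable {σ σ' : Type}

/-- The expected value of `h` after `m` random steps from `u`. -/
noncomputable def ex (f : σ → Bool → σ) : ℕ → (σ → ℝ) → σ → ℝ
  | 0, h, u => h u
  | m + 1, h, u => (ex f m h (f u false) + ex f m h (f u true)) / 2

/-- The walk with given bits. -/
def run (f : σ → Bool → σ) (u : σ) (ρ : ℕ → Bool) : ℕ → σ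
  | 0 => u
  | τ + 1 => f (run f u ρ τ) (ρ τ)

variable {f : σ → Bool → σ}

theorem ex_steps (m n : ℕ) (h : σ → ℝ) (u : σ) : ex f (m + n) h u = ex f m (ex f n h) u := by
  induction m generalizing u with
  | zero => rw [zero_add]; rfl
  | succ m ih => rw [add_right_comm, ex, ex, ih, ih]

theorem ex_mono {h g : σ → ℝ} (e : ∀ u, h u ≤ g u) (m : ℕ) (u : σ) : ex f m h u ≤ ex f m g u := by
  induction m generalizing u with
  | zero => exact e u
  | succ m ih =>
    rw [ex, ex]
    linarith [ih (f u false), ih (f u true)]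

theorem ex_lin (a b c : ℝ) (h g : σ → ℝ) (m : ℕ) (u : σ) :
    ex f m (fun v => a * h v + b * g v + c) u = a * ex f m h u + b * ex f m g u + c := by
  induction m generalizing u with
  | zero => rfl
  | succ m ih =>
    rw [ex, ex, ex, ih, ih]
    ring

theorem ex_const (c : ℝ) (m : ℕ) (u : σ) : ex f m (fun _ => c) u = c := by
  have := ex_lin (f := f) 0 0 c (fun _ => 0) (fun _ => 0) m u
  simpa using this

theorem ex_add (h g : σ → ℝ) (m : ℕ) (u : σ) :
    ex f m (fun v => h v + g v) u = ex f m h u + ex f m g u := by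
  have := ex_lin (f := f) 1 1 0 h g m u
  simpa using this

theorem ex_nonneg {h : σ → ℝ} (e : ∀ u, 0 ≤ h u) (m : ℕ) (u : σ) : 0 ≤ ex f m h u :=
  (ex_const (f := f) 0 m u).symm.trans_le (ex_mono e m u)

theorem ex_le_one {h : σ → ℝ} (e : ∀ u, h u ≤ 1) (m : ℕ) (u : σ) : ex f m h u ≤ 1 :=
  (ex_mono e m u).trans_eq (ex_const 1 m u)

theorem ex_map {f' : σ' → Bool → σ'} (φ : σ → σ') (hφ : ∀ u b, φ (f u b) = f' (φ u) b)
    (h : σ' → ℝ) (m : ℕ) (u : σ) : ex f m (fun v => h (φ v)) u = ex f' m h (φ u) := by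
  induction m generalizing u with
  | zero => rfl
  | succ m ih => rw [ex, ex, ih, ih, hφ, hφ]

/-- If `h` does not decrease along steps, the expected value grows with the time. -/
theorem ex_time {h : σ → ℝ} (e : ∀ u b, h u ≤ h (f u b)) {m n : ℕ} (hmn : m ≤ n) (u : σ) :
    ex f m h u ≤ ex f n h u := by
  obtain ⟨d, rfl⟩ := Nat.exists_eq_add_of_le hmn
  rw [ex_steps]
  refine ex_mono (fun v => ?_) m u
  induction d generalizing v with
  | zero => exact le_rfl
  | succ d ih =>
    rw [ex]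
    linarith [ih (by omega) (f v false), ih (by omega) (f v true), e v false, e v true]

theorem run_succ (u : σ) (ρ : ℕ → Bool) (τ : ℕ) :
    run f u ρ (τ + 1) = run f (f u (ρ 0)) (fun i => ρ (i + 1)) τ := by
  induction τ with
  | zero => rfl
  | succ τ ih => rw [run, ih, run]

theorem run_congr (u : σ) {ρ ρ' : ℕ → Bool} {τ : ℕ} (h : ∀ i < τ, ρ i = ρ' i) :
    run f u ρ τ = run f u ρ' τ := by
  induction τ with
  | zero => rfl
  | succ τ ih => rw [run, run, ih fun i hi => h i (by omega), h τ (by omega)]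

theorem sum_run (h : σ → ℝ) (T : ℕ) (u : σ) :
    ∑ r : Fin T → Bool, h (run f u (fun τ => if e : τ < T then r ⟨τ, e⟩ else false) T) =
      2 ^ T * ex f T h u := by
  induction T generalizing u with
  | zero => simp [run, ex]
  | succ T ih =>
    rw [← Fintype.sum_equiv (Fin.consEquiv fun _ => Bool)
      (fun z : Bool × (Fin T → Bool) => h (run f (f u z.1)
        (fun τ => if e : τ < T then z.2 ⟨τ, e⟩ else false) T)),
      Fintype.sum_prod_type, Fintype.sum_bool]
    · dsimp only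
      rw [ih, ih, ex]
      ring
    · rintro ⟨b, r⟩
      have e : run f u (fun τ => if e : τ < T + 1 then
          (Fin.consEquiv fun _ => Bool) (b, r) ⟨τ, e⟩ else false) (T + 1) =
          run f (f u b) (fun τ => if e : τ < T then r ⟨τ, e⟩ else false) T := by
        rw [run_succ]
        refine run_congr _ fun i hi => ?_
        rw [dif_pos hi, dif_pos (Nat.succ_lt_succ hi)]
        rfl
      rw [e]

/-! ### The binomial law -/

/-- The expected value of `h (c + X)` for a binomial number `X`. -/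
noncomputable def Bn (p : ℝ) : ℕ → (ℕ → ℝ) → ℕ → ℝ
  | 0, h, c => h c
  | j + 1, h, c => p * Bn p j h (c + 1) + (1 - p) * Bn p j h c

variable {p : ℝ}

theorem Bn_mono (h0 : 0 ≤ p) (h1 : p ≤ 1) {h g : ℕ → ℝ} (e : ∀ c, h c ≤ g c) (j c : ℕ) :
    Bn p j h c ≤ Bn p j g c := by
  induction j generalizing c with
  | zero => exact e c
  | succ j ih =>
    rw [Bn, Bn]
    exact add_le_add (mul_le_mul_of_nonneg_left (ih _) h0)
      (mul_le_mul_of_nonneg_left (ih _) (sub_nonneg.2 h1))

theorem Bn_sq (a s t : ℝ) (j c : ℕ) :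
    Bn p j (fun c => s * ((c : ℝ) - a) ^ 2 + t) c =
      s * (((c : ℝ) + j * p - a) ^ 2 + j * (p * (1 - p))) + t := by
  induction j generalizing c with
  | zero => simp [Bn]
  | succ j ih =>
    rw [Bn, ih, ih]
    push_cast
    ring

theorem cheb_hi (h0 : 0 ≤ p) (h1 : p ≤ 1) {P j : ℕ} (hP : 0 < P) (hj : p * P + 1 ≤ j) :
    Bn p (P ^ 2) (fun c => if j * P ≤ c then 1 else 0) 0 ≤ 1 / 4 := by
  have hP' : (0 : ℝ) < P := by exact_mod_cast hP
  refine (Bn_mono h0 h1 (g := fun c => 1 / (P : ℝ) ^ 2 * ((c : ℝ) - P ^ 2 * p) ^ 2 + 0)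
    (fun c => ?_) _ _).trans ?_
  · split_ifs with h
    · have h2 : (j : ℝ) * P ≤ c := by exact_mod_cast h
      have h3 : (P : ℝ) ≤ c - P ^ 2 * p := by nlinarith
      rw [add_zero, one_div_mul_eq_div, le_div_iff₀ (by positivity), one_mul]
      exact pow_le_pow_left₀ hP'.le h3 2
    · positivity
  · rw [Bn_sq]
    push_cast
    rw [zero_add, sub_self]
    field_simp
    nlinarith [sq_nonneg (2 * p - 1)]

theorem cheb_lo (h0 : 0 ≤ p) (h1 : p ≤ 1) {P j : ℕ} (hP : 0 < P) (hj : (j : ℝ) + 1 ≤ p * P) :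
    3 / 4 ≤ Bn p (P ^ 2) (fun c => if j * P ≤ c then 1 else 0) 0 := by
  have hP' : (0 : ℝ) < P := by exact_mod_cast hP
  refine le_trans ?_ (Bn_mono h0 h1
    (h := fun c => -(1 / (P : ℝ) ^ 2) * ((c : ℝ) - P ^ 2 * p) ^ 2 + 1) (fun c => ?_) _ _)
  · rw [Bn_sq]
    push_cast
    rw [zero_add, sub_self]
    field_simp
    nlinarith [sq_nonneg (2 * p - 1)]
  · split_ifs with h
    · have : 0 ≤ 1 / (P : ℝ) ^ 2 * ((c : ℝ) - P ^ 2 * p) ^ 2 := by positivity
      linarith
    · have h2 : (c : ℝ) < j * P := by exact_mod_cast not_le.1 h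
      have h3 : (P : ℝ) ≤ P ^ 2 * p - c := by nlinarith
      have h4 : (P : ℝ) ^ 2 ≤ ((c : ℝ) - P ^ 2 * p) ^ 2 := by
        rw [← neg_sq ((c : ℝ) - _), neg_sub]
        exact pow_le_pow_left₀ hP'.le h3 2
      have h5 : 1 ≤ 1 / (P : ℝ) ^ 2 * ((c : ℝ) - P ^ 2 * p) ^ 2 := by
        rw [one_div_mul_eq_div, le_div_iff₀ (by positivity), one_mul]
        exact h4
      linarith

/-- The number of thresholds which pass the test locates `p`. -/
theorem count_apx (h0 : 0 ≤ p) (h1 : p ≤ 1) {P : ℕ} (t : ℕ → Prop) [DecidablePred t]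
    (hi : ∀ j : ℕ, p * P + 1 ≤ j → ¬ t j) (lo : ∀ j : ℕ, (j : ℝ) + 1 ≤ p * P → t j) :
    |((∑ j ∈ range P, if t (j + 1) then 1 else 0 : ℕ) : ℝ) - p * P| ≤ 2 := by
  rw [← card_filter]
  have hp : 0 ≤ p * P := by positivity
  have a1 : (range P).filter (fun j => t (j + 1)) ⊆ range ⌈p * P⌉₊ := fun j hj => by
    have h2 := (mem_filter.1 hj).2
    rw [mem_range, Nat.lt_ceil]
    by_contra h3
    refine hi (j + 1) ?_ h2
    push_cast
    linarith [not_lt.1 h3]
  have a2 : range (⌊p * P⌋₊ - 1) ⊆ (range P).filter fun j => t (j + 1) := fun j hj => by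
    have h2 := mem_range.1 hj
    have h3 : ((j + 2 : ℕ) : ℝ) ≤ p * P := (Nat.le_floor_iff hp).1 (by omega)
    have h4 : p * P ≤ P := mul_le_of_le_one_left (Nat.cast_nonneg _) h1
    have h5 : j + 2 ≤ P := by exact_mod_cast h3.trans h4
    refine mem_filter.2 ⟨mem_range.2 (by omega), lo _ ?_⟩
    push_cast at h3 ⊢
    linarith
  have b1 := card_le_card a1
  have b2 := card_le_card a2
  rw [card_range] at b1 b2
  have c1 : (#{j ∈ range P | t (j + 1)} : ℝ) ≤ ⌈p * P⌉₊ := by exact_mod_cast b1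
  have c2 : (⌊p * P⌋₊ : ℝ) ≤ #{j ∈ range P | t (j + 1)} + 1 := by
    exact_mod_cast (by omega : ⌊p * P⌋₊ ≤ #{j ∈ range P | t (j + 1)} + 1)
  have c3 := Nat.ceil_lt_add_one hp
  have c4 := Nat.lt_floor_add_one (p * P)
  rw [abs_le]
  constructor <;> linarith

/-! ### Repetition -/

/-- The walk is repeated in blocks of `T + 1` steps, the successes are counted up to `k`. -/
def rp (f : σ → Bool → σ) (g : σ → Bool) (u0 : σ) (T k : ℕ) (s : σ × ℕ × ℕ) (b : Bool) :
    σ × ℕ × ℕ :=
  if s.2.1 < T then (f s.1 b, s.2.1 + 1, s.2.2) else (u0, 0, min (s.2.2 + (g s.1).toNat) k)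

theorem rp_block (g : σ → Bool) (u0 : σ) (T k : ℕ) (H : σ × ℕ × ℕ → ℝ) (c m : ℕ) :
    ∀ (t : ℕ) (u : σ), t + m ≤ T →
      ex (rp f g u0 T k) m H (u, t, c) = ex f m (fun v => H (v, t + m, c)) u := by
  induction m with
  | zero => exact fun _ _ _ => rfl
  | succ m ih =>
    intro t u h
    have e : ∀ b, rp f g u0 T k (u, t, c) b = (f u b, t + 1, c) := fun b =>
      if_pos (show t < T by omega)
    rw [ex, ex, e, e, ih _ _ (by omega), ih _ _ (by omega), add_assoc, add_comm 1 m]

theorem rp_ex (g : σ → Bool) (u0 : σ) (T k : ℕ) (h : ℕ → ℝ) (j : ℕ) : ∀ c, c + j ≤ k →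
    ex (rp f g u0 T k) (j * (T + 1)) (fun s => h s.2.2) (u0, 0, c) =
      Bn (ex f T (fun v => ((g v).toNat : ℝ)) u0) j h c := by
  induction j with
  | zero => exact fun c _ => by rw [zero_mul]; rfl
  | succ j ih =>
    intro c hc
    rw [show (j + 1) * (T + 1) = T + (j * (T + 1) + 1) by ring, ex_steps,
      rp_block g u0 T k _ c T 0 u0 (by omega), Bn]
    set p := ex f T (fun v => ((g v).toNat : ℝ)) u0 with hp
    have e : (fun v => ex (rp f g u0 T k) (j * (T + 1) + 1) (fun s => h s.2.2) (v, 0 + T, c)) =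
        fun v => (Bn p j h (c + 1) - Bn p j h c) * ((g v).toNat : ℝ) + 0 * 0 + Bn p j h c := by
      funext v
      have e1 : ∀ b, rp f g u0 T k (v, 0 + T, c) b = (u0, 0, c + (g v).toNat) := fun b => by
        have := Bool.toNat_le (g v)
        rw [rp, if_neg (by simp), min_eq_left (by simp only; omega)]
      rw [ex, e1, e1, add_self_div_two]
      cases g v
      · rw [Bool.toNat_false, add_zero, ih c (by omega)]
        simp
      · rw [Bool.toNat_true, ih (c + 1) (by omega)]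
        simp
    rw [e, ex_lin _ 0 _ _ fun _ => 0, ← hp]
    ring

end Vale.Agent.N313
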