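import Vale.Agent.N313.Gen
import Vale.Agent.N313.Ex

/-! The success probability of a walk on numbers which is given in small space is approximated in
small space, first up to `1 / 13`, then up to any precision. -/

namespace Vale.Agent.N313

open Finset Function Vale.Agent.Lib.Space Vale.Agent.P313 Vale.Agent.P313.F43 Vale.Agent.P313.Full

section graph

variable (W T u0 : ℕ) (f : ℕ → Bool → ℕ) (g : ℕ → Bool)

/-- The successor of a vertex in the layered graph. -/
def tg (w : ℕ) (b : Bool) : ℕ :=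
  if w = 0 then 1 + u0
  else if (w - 1) / W < T then 1 + ((w - 1) / W + 1) * W + f ((w - 1) % W) b
  else if (w - 1) / W = T ∧ g ((w - 1) % W) = true then (T + 1) * W + 1
  else (T + 1) * W + 2

/-- The number of edges between two vertices. -/
def adj (w w' : ℕ) : ℕ :=
  (if tg W T u0 f g w false = w' then 1 else 0) + if tg W T u0 f g w true = w' then 1 else 0

variable {W T u0 f g}

theorem lt_tg (h0 : 0 < W) {w : ℕ} (hw : w < (T + 1) * W + 2) (b : Bool) :
    w < tg W T u0 f g w b := by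
  have h1 := Nat.div_add_mod (w - 1) W
  have h2 := Nat.mod_lt (w - 1) h0
  unfold tg
  split_ifs with e1 e2 e3
  · omega
  · rw [add_mul, mul_comm _ W]
    omega
  · rw [e3.1] at h1
    rw [add_mul, mul_comm _ W]
    omega
  · exact hw

theorem sum_adj {N : ℕ} (w : ℕ) (F : Fin N → ℝ) :
    ∑ v : Fin N, (adj W T u0 f g w v : ℝ) / (2 : ℕ) * F v =
      ((if h : tg W T u0 f g w false < N then F ⟨_, h⟩ else 0) +
        if h : tg W T u0 f g w true < N then F ⟨_, h⟩ else 0) / 2 := by
  have key : ∀ y : ℕ,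
      ∑ v : Fin N, (if y = v then F v else 0) = if h : y < N then F ⟨_, h⟩ else 0 := by
    intro y
    split_ifs with h
    · rw [sum_eq_single_of_mem ⟨y, h⟩ (mem_univ _), if_pos rfl]
      intro v _ hv
      exact if_neg fun e => hv (Fin.ext e.symm)
    · exact sum_eq_zero fun v _ => if_neg fun e : y = v => h (e ▸ v.2)
  rw [← key, ← key, ← sum_add_distrib, sum_div]
  refine sum_congr rfl fun v _ => ?_
  rw [adj]
  split_ifs <;> push_cast <;> ring

theorem sub_adj (h0 : 0 < W) : Sub (mat ((T + 1) * W + 2) (adj W T u0 f g) 2) where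
  nonneg u v := by rw [mat]; positivity
  row u := by
    have := sum_adj (W := W) (T := T) (u0 := u0) (f := f) (g := g) (N := (T + 1) * W + 2) u
      fun _ => 1
    simp only [mul_one] at this
    simp only [mat]
    rw [this]
    split_ifs <;> norm_num
  tri u v h := by
    have h1 := lt_tg (u0 := u0) (f := f) (g := g) h0 u.2 false
    have h2 := lt_tg (u0 := u0) (f := f) (g := g) h0 u.2 true
    have h3 := Fin.le_def.1 h
    rw [mat, adj, if_neg (by omega), if_neg (by omega)]
    simp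

theorem gr_adj (hu : u0 < W) (hf : ∀ u < W, ∀ b, f u b < W)
    (h0 : 0 < (T + 1) * W + 2) (h1 : (T + 1) * W + 2 - 1 < (T + 1) * W + 2) :
    gr (mat ((T + 1) * W + 2) (adj W T u0 f g) 2) ⟨0, h0⟩ ⟨(T + 1) * W + 2 - 1, h1⟩ =
      ex f T (fun v => ((g v).toNat : ℝ)) u0 := by
  have hW : 0 < W := by omega
  have hS := sub_adj (T := T) (u0 := u0) (f := f) (g := g) hW
  set z : Fin ((T + 1) * W + 2) := ⟨(T + 1) * W + 2 - 1, h1⟩ with hz
  set val : ℕ → ℝ := fun w => if h : w < (T + 1) * W + 2 then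
    gr (mat ((T + 1) * W + 2) (adj W T u0 f g) 2) ⟨w, h⟩ z else 0 with hval
  have step : ∀ w, w < (T + 1) * W + 1 →
      val w = (val (tg W T u0 f g w false) + val (tg W T u0 f g w true)) / 2 := by
    intro w hw
    have hw' : w < (T + 1) * W + 2 := by omega
    have e : val w = gr (mat ((T + 1) * W + 2) (adj W T u0 f g) 2) ⟨w, hw'⟩ z := dif_pos hw'
    rw [e, hS.gr_col, if_neg (fun e => by
      have := congrArg Fin.val e
      simp only [hz] at this
      omega), zero_add]
    exact sum_adj w _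
  have key : ∀ m τ, τ + m = T → ∀ u < W,
      val (1 + τ * W + u) = ex f m (fun v => ((g v).toNat : ℝ)) u := by
    intro m
    induction m with
    | zero =>
      intro τ hτ u hl
      obtain rfl : τ = T := hτ
      have e1 : 1 + τ * W + u - 1 = u + W * τ := by rw [mul_comm τ]; omega
      have e3 : ∀ b, val (tg W τ u0 f g (1 + τ * W + u) b) = ((g u).toNat : ℝ) := by
        intro b
        unfold tg
        rw [if_neg (by omega), e1, Red.add_mul_div hl, Red.add_mul_mod hl, if_neg (lt_irrefl _)]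
        by_cases ha : g u = true
        · rw [if_pos ⟨rfl, ha⟩, ha]
          have e3 : (τ + 1) * W + 1 < (τ + 1) * W + 2 := Nat.lt_succ_self _
          exact ((dif_pos e3).trans (hS.gr_diag _)).trans (by simp)
        · rw [if_neg fun e => ha e.2, Bool.eq_false_iff.2 ha]
          exact (dif_neg (lt_irrefl _)).trans (by simp)
      rw [step _ (by rw [add_mul]; omega), e3, e3, add_self_div_two, ex]
    | succ m ih =>
      intro τ hτ u hl
      have e1 : 1 + τ * W + u - 1 = u + W * τ := by rw [mul_comm τ]; omega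
      have e3 : ∀ b, val (tg W T u0 f g (1 + τ * W + u) b) =
          ex f m (fun v => ((g v).toNat : ℝ)) (f u b) := by
        intro b
        unfold tg
        rw [if_neg (by omega), e1, Red.add_mul_div hl, Red.add_mul_mod hl, if_pos (by omega)]
        exact ih (τ + 1) (by omega) _ (hf u hl b)
      have h2 : (τ + 1) * W ≤ (T + 1) * W := Nat.mul_le_mul_right _ (by omega)
      rw [step _ (by rw [add_mul] at h2; omega), e3, e3, ex]
  have e : val 0 = gr (mat ((T + 1) * W + 2) (adj W T u0 f g) 2) ⟨0, h0⟩ z := dif_pos h0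
  have e' := key T 0 (zero_add T) u0 hu
  rw [zero_mul, add_zero] at e'
  rw [← e, step 0 (by omega)]
  simp only [tg, if_true]
  exact (add_self_div_two _).trans e'

end graph

variable {A α : Type} [Enc A α] {B : Bud A}

/-- A family of walks on initial segments of the numbers which is given in small space. -/
structure Walk (B : Bud A) (W T u0 : α → ℕ) (f : α → ℕ → Bool → ℕ) (g : α → ℕ → Bool) : Prop where
  hW : SP B W
  hT : SP B T
  hu : SP B u0
  hf : ∀ b, SP B fun p : α × ℕ => f p.1 p.2 b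
  hg : SP B fun p : α × ℕ => g p.1 p.2
  lt0 : ∀ a, u0 a < W a
  lt : ∀ a, ∀ u < W a, ∀ b, f a u b < W a

variable {W T u0 : α → ℕ} {f : α → ℕ → Bool → ℕ} {g : α → ℕ → Bool}

theorem Walk.apx13 (h : Walk B W T u0 f g) : ∃ r : α → ℝ, RSP B r ∧
    ∀ (x : List A) (a : α), Enc.ok x a →
      |r a - ex (f a) (T a) (fun v => ((g a v).toNat : ℝ)) (u0 a)| ≤ 1 / 13 := by
  have ht : ∀ b, SP B fun p : α × ℕ × ℕ =>
      tg (W p.1) (T p.1) (u0 p.1) (f p.1) (g p.1) p.2.1 b := by
    intro b
    have hX : SP B fun p : α × ℕ × ℕ => p.1 := SP.fst'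
    have hw : SP B fun p : α × ℕ × ℕ => p.2.1 := SP.snd'.fst
    have hW := h.hW.comp hX
    have hT := h.hT.comp hX
    have h1 := (hw.sub (SP.const 1)).div hW
    have h2 := (hw.sub (SP.const 1)).mod hW
    have h3 := (hT.add (SP.const 1)).mul hW
    unfold tg
    exact SP.ite (hw.decide_eq (SP.const 0)) ((SP.const 1).add (h.hu.comp hX))
      (SP.ite (h1.decide_lt hT) (((SP.const 1).add ((h1.add (SP.const 1)).mul hW)).add
        ((h.hf b).comp (hX.pair h2)))
      (SP.ite (SP.decide_and (h1.decide_eq hT) (h.hg.comp (hX.pair h2)).decide_true)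
        (h3.add (SP.const 1)) (h3.add (SP.const 2))))
  obtain ⟨r, r1, r2⟩ := grApx (Bu := B) (N := fun a => (T a + 1) * W a + 2)
    (A0 := fun a => adj (W a) (T a) (u0 a) (f a) (g a)) (fun _ => Nat.le_add_left _ _)
    (fun a => sub_adj ((Nat.zero_le _).trans_lt (h.lt0 a)))
    (((h.hT.add (SP.const 1)).mul h.hW).add (SP.const 2))
    ((SP.ite ((ht false).decide_eq SP.snd'.snd) (SP.const 1) (SP.const 0)).add
      (SP.ite ((ht true).decide_eq SP.snd'.snd) (SP.const 1) (SP.const 0)))
  refine ⟨r, r1, fun x a ha => ?_⟩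
  have h3 := r2 x a ha (by omega) (by omega)
  rwa [gr_adj (h.lt0 a) (h.lt a)] at h3

/-- The repeated walk on codes. -/
def rpc (W T u0 k : ℕ) (f : ℕ → Bool → ℕ) (g : ℕ → Bool) (w : ℕ) (b : Bool) : ℕ :=
  if w / W % (T + 1) < T then f (w % W) b + W * (w / W % (T + 1) + 1 + (T + 1) * (w / W / (T + 1)))
  else u0 + W * (0 + (T + 1) * min (w / W / (T + 1) + (g (w % W)).toNat) k)

theorem rpc_dec {W T u0 k : ℕ} {f : ℕ → Bool → ℕ} {g : ℕ → Bool} (hu : u0 < W)
    (hf : ∀ u < W, ∀ b, f u b < W) (w : ℕ) (b : Bool) :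
    (rpc W T u0 k f g w b % W, rpc W T u0 k f g w b / W % (T + 1),
      rpc W T u0 k f g w b / W / (T + 1)) =
      rp f g u0 T k (w % W, w / W % (T + 1), w / W / (T + 1)) b := by
  have h1 := hf _ (Nat.mod_lt w (by omega)) b
  unfold rpc rp
  split_ifs with h
  · rw [Red.add_mul_mod h1, Red.add_mul_div h1, Red.add_mul_mod (by omega),
      Red.add_mul_div (by omega)]
  · rw [Red.add_mul_mod hu, Red.add_mul_div hu, Red.add_mul_mod (by omega),
      Red.add_mul_div (by omega)]

theorem rpc_lt {W T u0 k : ℕ} {f : ℕ → Bool → ℕ} {g : ℕ → Bool} (hu : u0 < W)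
    (hf : ∀ u < W, ∀ b, f u b < W) {w : ℕ} (hw : w < W * ((T + 1) * (k + 1))) (b : Bool) :
    rpc W T u0 k f g w b < W * ((T + 1) * (k + 1)) := by
  have h1 := hf _ (Nat.mod_lt w (by omega)) b
  have h2 : w / W / (T + 1) < k + 1 := Nat.div_lt_of_lt_mul (Nat.div_lt_of_lt_mul hw)
  unfold rpc
  split_ifs with h
  · exact Red.add_mul_lt h1 (Red.add_mul_lt (by omega) h2)
  · exact Red.add_mul_lt hu (Red.add_mul_lt (by omega) (Nat.lt_succ_of_le (min_le_right _ _)))

/-- The success probability up to the error `2 / P`. -/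
theorem Walk.apx (h : Walk B W T u0 f g) {P : α → ℕ} (hP : SP B P) (hP0 : ∀ a, 0 < P a) :
    ∃ m : α → ℕ, SP B m ∧ ∀ (x : List A) (a : α), Enc.ok x a →
      |(m a : ℝ) - ex (f a) (T a) (fun v => ((g a v).toNat : ℝ)) (u0 a) * P a| ≤ 2 := by
  classical
  have h' : Walk B (fun q : α × ℕ => W q.1 * ((T q.1 + 1) * (P q.1 ^ 2 + 1)))
      (fun q => P q.1 ^ 2 * (T q.1 + 1)) (fun q => u0 q.1)
      (fun q => rpc (W q.1) (T q.1) (u0 q.1) (P q.1 ^ 2) (f q.1) (g q.1))
      fun q w => decide (q.2 * P q.1 ≤ w / W q.1 / (T q.1 + 1)) := by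
    have hX : SP B fun p : (α × ℕ) × ℕ => p.1.1 := SP.fst'.fst
    have hw : SP B fun p : (α × ℕ) × ℕ => p.2 := SP.snd'
    have hW := h.hW.comp hX
    have hT := h.hT.comp hX
    have hT1 := hT.add (SP.const 1)
    have h1 := (hw.div hW).mod hT1
    have h2 := (hw.div hW).div hT1
    have h3 := hw.mod hW
    refine ⟨(h.hW.comp SP.fst').mul (((h.hT.comp SP.fst').add (SP.const 1)).mul
        (((hP.comp SP.fst').pow_const 2).add (SP.const 1))),
      ((hP.comp SP.fst').pow_const 2).mul ((h.hT.comp SP.fst').add (SP.const 1)),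
      h.hu.comp SP.fst', fun b => ?_, (SP.fst'.snd.mul (hP.comp hX)).decide_le h2, fun q => ?_,
      fun q w hw b => rpc_lt (h.lt0 _) (h.lt _) hw b⟩
    · unfold rpc
      exact SP.ite (h1.decide_lt hT)
        (((h.hf b).comp (hX.pair h3)).add (hW.mul ((h1.add (SP.const 1)).add (hT1.mul h2))))
        ((h.hu.comp hX).add (hW.mul ((SP.const 0).add (hT1.mul
          ((h2.add (h.hg.comp (hX.pair h3)).toNat).min ((hP.comp hX).pow_const 2))))))
    · exact (h.lt0 _).trans_le (Nat.le_mul_of_pos_right _ (by positivity))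
  obtain ⟨r, r1, r2⟩ := h'.apx13
  refine ⟨fun a => ∑ j ∈ range (P a), if 1 / 2 ≤ r (a, j + 1) then 1 else 0,
    SP.sum_range hP (SP.ite ((RSP.const (r := 1 / 2) (1 / 2) (by norm_num)).decide_le
      (r1.comp (SP.fst'.pair (SP.snd'.add (SP.const 1))))) (SP.const 1) (SP.const 0)),
    fun x a ha => ?_⟩
  set p := ex (f a) (T a) (fun v => ((g a v).toNat : ℝ)) (u0 a) with hp
  have p0 : 0 ≤ p := ex_nonneg (fun _ => Nat.cast_nonneg _) _ _
  have p1 : p ≤ 1 := ex_le_one (fun v => by exact_mod_cast Bool.toNat_le _) _ _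
  have key : ∀ j : ℕ, |r (a, j) - Bn p (P a ^ 2) (fun c => if j * P a ≤ c then 1 else 0) 0| ≤
      1 / 13 := by
    intro j
    have h3 := r2 x (a, j) ⟨ha, trivial⟩
    have h4 := ex_map (f := rpc (W a) (T a) (u0 a) (P a ^ 2) (f a) (g a))
      (fun w => (w % W a, w / W a % (T a + 1), w / W a / (T a + 1)))
      (rpc_dec (h.lt0 a) (h.lt a)) (fun s => if j * P a ≤ s.2.2 then 1 else 0)
      (P a ^ 2 * (T a + 1)) (u0 a)
    simp only [Nat.mod_eq_of_lt (h.lt0 a), Nat.div_eq_of_lt (h.lt0 a), Nat.zero_mod,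
      Nat.zero_div] at h4
    rw [rp_ex (g a) (u0 a) (T a) (P a ^ 2) (fun c => if j * P a ≤ c then 1 else 0) _ 0
      (by omega), ← hp] at h4
    rw [← h4]
    have e : (fun v => ((decide (j * P a ≤ v / W a / (T a + 1))).toNat : ℝ)) =
        fun v => if j * P a ≤ v / W a / (T a + 1) then 1 else 0 := by
      funext v
      split_ifs with h5 <;> simp [h5]
    rwa [e] at h3
  refine count_apx p0 p1 (fun j => 1 / 2 ≤ r (a, j)) (fun j hj => ?_) fun j hj => ?_
  · have := cheb_hi p0 p1 (hP0 a) hj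
    have := (abs_le.1 (key j)).2
    linarith
  · have := cheb_lo p0 p1 (hP0 a) hj
    have := (abs_le.1 (key j)).1
    linarith

end Vale.Agent.N313
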