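import Vale.Agent.P313.Defs
import Mathlib.Topology.Algebra.InfiniteSum.Real

/-!
Promise problems for randomized machines with an arbitrary space bound, the probability of a run
within given resources, and the number written on a work tape.
-/

namespace Vale.Agent.N313

open Vale.Agent.Lib.Space Vale.Agent.P313

variable {A : Type}

/-- Some randomized machine uses `O(s n)` cells, halts on every input for all random bits (no time
bound is prescribed), accepts the words of `No` with probability at most `a` and the words of `Yes`
with probability at least `b`. -/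
def RandSolves (s : ℕ → ℝ) (a b : ℝ) (Yes No : Language A) : Prop :=
  ∃ M : RandTape A,
    (∃ (C : ℝ) (N : ℕ), ∀ x : List A, N ≤ x.length → M.UsesAtMost x (C * s x.length)) ∧
    ∀ x : List A, ∃ T : ℕ, M.HaltsWithin x T ∧
      (x ∈ No → M.accProb x T ≤ a) ∧ (x ∈ Yes → b ≤ M.accProb x T)

/-- The probability, over `T` independent fair random bits, that on the input `x` the machine has
halted after `T` steps and its heads have visited at most `S` cells of the work tapes. -/
noncomputable def okProb (M : RandTape A) (x : List A) (S T : ℕ) : ℝ :=
  (Nat.card {r : Fin T → Bool //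
    M.act x (M.conf x (fun τ => if h : τ < T then r ⟨τ, h⟩ else false) T) = none ∧
    ∃ F : Finset (M.Tape × ℤ), F.card ≤ S ∧ ∀ σ ≤ T, ∀ i,
      (i, (M.conf x (fun τ => if h : τ < T then r ⟨τ, h⟩ else false) σ).head i) ∈ F} : ℝ) / 2 ^ T

open Classical in
/-- The binary fraction `0.b₁b₂b₃…` on the work tape `i`, where `b j = 1` iff the cell `j` holds
the symbol `e`. -/
noncomputable def out (D : MultiTape A) (i : D.Tape) (e : D.Sym) (c : D.Conf) : ℝ :=
  ∑' j : ℕ, if c.tape i (j + 1) = e then 1 / 2 ^ (j + 1) else 0

end Vale.Agent.N313
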