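import Vale.Agent.P313.Full.PgAll

/-! The approximation of an entry of the Green matrix, for arbitrary budgets and contexts. -/

namespace Vale.Agent.N313

open Finset Function Vale.Agent.Lib.Space Vale.Agent.P313 Vale.Agent.P313.F43 Vale.Agent.P313.Full
  Vale.Agent.P313.Hi

variable {A α : Type} [Enc A α] {Bu : Bud A}

theorem progOut_gen {N : α → ℕ} {A0 : α → ℕ → ℕ → ℕ} {W : α → ℕ → Tb}
    (hN : SP Bu N) (hA : SP Bu fun p : α × ℕ × ℕ => A0 p.1 p.2.1 p.2.2)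
    (hg : ∀ x, (cfOf (16 * cw) (2 * cw) (N x) (A0 x)).Ok ∧
      IsTab (cfOf (16 * cw) (2 * cw) (N x) (A0 x)) (W x) ∧
      ∀ k ≤ pK (N x), Good (cfOf (16 * cw) (2 * cw) (N x) (A0 x)) (W x) k) :
    ProgOut Bu (fun x => cfOf (16 * cw) (2 * cw) (N x) (A0 x)) W fun x => pE (N x) := by
  set I : α × ℕ × ℕ × ℕ → In := fun p => inOf (N p.1) (A0 p.1) p.2.2.1 p.2.2.2 with hI
  have hN' : SP Bu fun p : α × ℕ × ℕ × ℕ => N p.1 := hN.comp SP.fst'
  have hc : Cf.IsSP Bu fun p => (I p).toCf :=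
    isSP_cfOf _ _ hN' (hA.comp (SP.fst'.fst.pair SP.snd'))
  have hP : (prog I).IsSP Bu := prog_isSP ⟨hc, SP.snd'.snd.fst, SP.snd'.snd.snd, sp_nmK hN',
    ((sp_pow_pK hN' (C + 2)).mul (SP.const 8)).congr fun p => by rw [pow_add]; rfl⟩
  have hk : SP Bu fun p : α × ℕ × ℕ × ℕ => min p.2.1 (pK (N p.1)) :=
    SP.snd'.fst.min (sp_pK hN')
  have hnb : SP Bu fun p => (I p).nb := hc.n0.add ((SP.const a).mul hc.K)
  have o2 : ∀ p, (I p).Ok2 := fun p => cfOf_ok2 (hg p.1).1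
  have hT : ∀ p, TopFacts I p (W p.1) := fun p =>
    topFacts_of (env_of (o2 p) (hg p.1).2.1) (lvg_all (env_of (o2 p) (hg p.1).2.1) true)
      (uncSt_all (env_of (o2 p) (hg p.1).2.1))
  have h1 : ∀ x, 1 ≤ pK (N x) := fun x => by unfold pK; omega
  have h2 : ∀ (x : α) {k v : ℕ}, k < pK (N x) → v < nm (pn0 (N x)) k →
      v < 2 ^ (cfOf (16 * cw) (2 * cw) (N x) (A0 x)).nb := fun x k v hk hv =>
    hv.trans_le (nm_le _ hk.le)
  refine ⟨fun d => ?_, ?_⟩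
  · obtain ⟨r, r1, r2⟩ := top_run (prog I) I hP (.topH d) rfl hk
      ((SP.const cP).mul (sp_pK hN')) (sp_pE hN') (sp_pow_pK hN' cP).pbd (sp_pow_pE hN').pbd
      hc.pL.pbd hnb (sp_nmK hN') (fun p _ => (W p.1 p.2.1).H d q0 p.2.2.1)
      (fun p => p.2.1 < pK (N p.1) ∧ p.2.2.1 < nm (pn0 (N p.1)) p.2.1) fun _ p _ =>
        ⟨rfl, (hT p).wf, fun t q hq => ⟨(hT p).unc t q hq, adm_le (o2 p) hq⟩,
          ⟨fok_Fr (o2 p).toOk (min_le_right _ _), rfl⟩, pot_Fr (min_le_right _ _) (h1 _),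
          fun s hs => ⟨_, (hT p).topH d (min_le_right _ _) hs, fun h3 => by
            rw [min_eq_left (b := (I p).K) h3.1.le]
            split_ifs with h4
            · rw [Cf.nx, h4]
              exact congrArg _ (Nat.mod_eq_of_lt h3.2)
            · rfl⟩⟩
    refine ⟨fun p => r (p.1, p.2.1, p.2.2, 0),
      r1.comp (SP.fst'.pair (SP.snd'.fst.pair (SP.snd'.snd.pair (SP.const 0)))),
      fun x y hy k hk v hv => ?_⟩
    have h3 := r2 x (y, k, v, 0) ⟨hy, trivial, trivial, trivial⟩ ⟨hk, hv⟩ (h2 y hk hv)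
    simpa only [Cf.JK, Cf.JS, mean_const (Nat.two_pow_pos _)] using h3
  · obtain ⟨r, r1, r2⟩ := top_run (prog I) I hP .topR rfl hk
      ((SP.const cP).mul (sp_pK hN')) ((sp_pE hN').add (SP.const (2 * cZ))) (sp_pow_pK hN' cP).pbd
      (((sp_pow_pE hN').pbd.mul (PBd.const (2 ^ (2 * cZ)))).mono fun p => (pow_add _ _ _).le)
      hc.pL.pbd hnb (sp_nmK hN') (fun p => (W p.1 p.2.1).rw (I p).toCf p.2.2.1 p.2.2.2)
      (fun p => p.2.1 < pK (N p.1) ∧ p.2.2.1 < nm (pn0 (N p.1)) p.2.1) fun _ p _ =>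
        ⟨rfl, (hT p).wf, fun t q hq => ⟨(hT p).unc t q hq, adm_le (o2 p) hq⟩,
          ⟨fok_Fr (o2 p).toOk (min_le_right _ _), rfl⟩, pot_Fr (min_le_right _ _) (h1 _),
          fun s hs => ((hT p).topR ⟨(hg p.1).1, (hg p.1).2.1, min_le_right _ _, fun j hj =>
            (hg p.1).2.2 j (hj.le.trans (min_le_right _ _))⟩ hs).imp fun v hv => ⟨hv.1, fun h3 => by
              have h4 := hv.2
              rw [min_eq_left (b := (I p).K) h3.1.le] at h4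
              exact h4 h3.2⟩⟩
    exact ⟨r, r1, fun x y hy k hk u hu v _ =>
      r2 x (y, k, u, v) ⟨hy, trivial, trivial, trivial⟩ ⟨hk, hu⟩ (h2 y hk hu)⟩

/-- The Green entry of a graph of in-degree at most two. -/
theorem grApx_deg {N : α → ℕ} {A0 : α → ℕ → ℕ → ℕ} (h2 : ∀ x, 2 ≤ N x)
    (hS : ∀ x, Sub (mat (N x) (A0 x) 2)) (hd : ∀ x v, #{u ∈ range (N x) | A0 x u v ≠ 0} ≤ 2)
    (hN : SP Bu N) (hA : SP Bu fun p : α × ℕ × ℕ => A0 p.1 p.2.1 p.2.2) :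
    ∃ r : α → ℝ, RSP Bu r ∧ ∀ (x : List A) (a : α), Enc.ok x a → ∀ h0 h1,
      |r a - gr (mat (N a) (A0 a) 2) ⟨0, h0⟩ ⟨N a - 1, h1⟩| ≤ 1 / 13 := by
  choose W hW using fun x => exists_isTab (cfOf (16 * cw) (2 * cw) (N x) (A0 x)) (le_pn0 _)
  have hg : ∀ x, (cfOf (16 * cw) (2 * cw) (N x) (A0 x)).Ok ∧
      IsTab (cfOf (16 * cw) (2 * cw) (N x) (A0 x)) (W x) ∧
      ∀ k ≤ pK (N x), Good (cfOf (16 * cw) (2 * cw) (N x) (A0 x)) (W x) k := fun x =>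
    ⟨cfOf_ok cw_m cw_L (hS x) (hd x), hW x, good_tab (cfOf_ok cw_m cw_L (hS x) (hd x)) (hW x)⟩
  have hO := (progOut_gen hN hA hg).oracle fun _ x _ => hg x
  have hK : ∀ x, ∀ k < pK (N x), StatK (2 ^ 100) (lv (N x) (pn0 (N x)) (pK (N x)) (A0 x)
      (fun j => (W x j).H false q0) (fun j => (W x j).H true q0)) k := by
    intro x k hk
    have h3 := (Good.stat (hW x) hk.le ((hg x).2.2 k hk.le))
    have hI := fun i (hi : i ≤ k) => inv_lv (pK (N x)) (hS x) (le_pn0 _) _ _ i fun j hj =>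
      (Good.stat (hW x) (k := j) (by exact (hj.le.trans hi).trans hk.le)
        ((hg x).2.2 j ((hj.le.trans hi).trans hk.le))).low
    exact ⟨h3.low, fun z hz => (h3.hc z hz).trans (le_mul_of_one_le_left
        (upC_nonneg k (fun i hi => (hI i hi).S_nonneg) z) (by norm_num)),
      fun z hz => (h3.hr z hz).trans (le_mul_of_one_le_left
        (upR_nonneg k (fun i hi => (hI i hi).S_nonneg) z) (by norm_num))⟩
  exact apx_of_oracle le_rfl hN (sp_pn0 hN) (sp_pK hN) (sp_pow_pE hN)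
    (sp_nmK hN).pbd hA hO fun _ x _ =>
      ⟨h2 x, le_pn0 _, le_rfl, hS x, hK x, (Nat.lt_size_self _).le⟩

/-- The Green entry of an arbitrary graph. -/
theorem grApx {N : α → ℕ} {A0 : α → ℕ → ℕ → ℕ} (h2 : ∀ x, 2 ≤ N x)
    (hS : ∀ x, Sub (mat (N x) (A0 x) 2))
    (hN : SP Bu N) (hA : SP Bu fun p : α × ℕ × ℕ => A0 p.1 p.2.1 p.2.2) :
    ∃ r : α → ℝ, RSP Bu r ∧ ∀ (x : List A) (a : α), Enc.ok x a → ∀ h0 h1,
      |r a - gr (mat (N a) (A0 a) 2) ⟨0, h0⟩ ⟨N a - 1, h1⟩| ≤ 1 / 13 := by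
  have hC : SP Bu fun p : α × ℕ × ℕ => Red.ch (N p.1) (A0 p.1) p.2.1 p.2.2 := by
    have hX : SP Bu fun p : α × ℕ × ℕ => p.1 := SP.fst'
    have hp : SP Bu fun p : α × ℕ × ℕ => p.2.1 := SP.snd'.fst
    have hq : SP Bu fun p : α × ℕ × ℕ => p.2.2 := SP.snd'.snd
    have hn := hN.comp hX
    have hn1 := hn.add (SP.const 1)
    exact SP.ite ((hp.mod hn1).decide_lt hn)
      (SP.ite (hq.decide_eq (hp.add (SP.const 1))) (SP.const 2) (SP.const 0))
      (SP.ite ((hq.mod hn1).decide_eq (hp.div hn1))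
        (hA.comp (hX.pair ((hp.div hn1).pair (hq.div hn1)))) (SP.const 0))
  obtain ⟨r, r1, r2⟩ := grApx_deg (N := fun x => N x * (N x + 1))
    (A0 := fun x => Red.ch (N x) (A0 x)) (fun x => by have := h2 x; nlinarith)
    (fun x => Red.ch_sub (hS x)) (fun x v => Red.ch_col v _) (hN.mul (hN.add (SP.const 1))) hC
  refine ⟨r, r1, fun x a ha h0 h1 => ?_⟩
  have h3 := h2 a
  have h4 : 0 < N a * (N a + 1) := by positivity
  have h5 := r2 x a ha h4 (by omega)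
  rwa [Red.ch_gr (hS a) h0 h1] at h5

end Vale.Agent.N313
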