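import Vale.Agent.N313.Apx
import Vale.Agent.N313.Defs

/-! A randomized machine which is stopped when a head reaches the border of a window. -/

namespace Vale.Agent.N313

open Finset Function Vale.Agent.Lib.Space Vale.Agent.P313 Vale.Agent.P313.Red

variable {A : Type} (M : RandTape A) (x : List A)

theorem conf_run (ρ : ℕ → Bool) (τ : ℕ) : M.conf x ρ τ = run (M.next x) (init M) ρ τ := by
  induction τ with
  | zero => rfl
  | succ τ ih => rw [RandTape.conf, run, ih]

variable {M} in
/-- All heads are in the interior of the window. -/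
def Safe (l : ℕ) (c : M.Conf) : Prop := ∀ i, -(l : ℤ) < c.head i ∧ c.head i < l

variable {M} in
/-- The machine has halted with the answer `d`. -/
def End (d : Bool) (c : M.Conf) : Prop := M.act x c = none ∧ (c.state ∈ M.accept ↔ d = true)

open Classical in
/-- The step of the stopped machine. -/
noncomputable def kl (l : ℕ) : Option M.Conf → Bool → Option M.Conf
  | none, _ => none
  | some c, b => if Safe l c then some (M.next x c b) else none

open Classical in
/-- The stopped machine has halted with the answer `d`. -/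
noncomputable def gE (l : ℕ) (d : Bool) : Option M.Conf → Bool
  | none => false
  | some c => decide (Safe l c ∧ End x d c)

/-- The probability that the stopped machine has halted with the answer `d` after `t` steps. -/
noncomputable def lvp (l t : ℕ) (d : Bool) : ℝ :=
  ex (kl M x l) t (fun o => ((gE M x l d o).toNat : ℝ)) (some (init M))

open Classical in
/-- The probability that the machine has halted with the answer `d` after `t` steps. -/
noncomputable def trp (t : ℕ) (d : Bool) : ℝ :=
  ex (M.next x) t (fun c => if End x d c then 1 else 0) (init M)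

variable {M x}

theorem next_of_halt {c : M.Conf} (h : M.act x c = none) (b : Bool) : M.next x c b = c := by
  unfold RandTape.next
  rw [h]

theorem ex_kl_none (l t : ℕ) (d : Bool) :
    ex (kl M x l) t (fun o => ((gE M x l d o).toNat : ℝ)) none = 0 := by
  induction t with
  | zero => simp [ex, gE]
  | succ t ih =>
    rw [ex]
    simp only [kl]
    rw [ih]
    norm_num

open Classical in
theorem lvp_le (l t : ℕ) (d : Bool) : lvp M x l t d ≤ trp M x t d := by
  unfold lvp trp
  generalize init M = c
  induction t generalizing c with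
  | zero =>
    simp only [ex, gE]
    by_cases h : End x d c
    · rw [if_pos h]
      exact_mod_cast Bool.toNat_le _
    · simp [h]
  | succ t ih =>
    rw [ex, ex]
    simp only [kl]
    split_ifs with h
    · linarith [ih (M.next x c false), ih (M.next x c true)]
    · have h0 : ∀ c', 0 ≤ ex (M.next x) t (fun c => if End x d c then (1 : ℝ) else 0) c' :=
        ex_nonneg (fun c => by split_ifs <;> norm_num) t
      rw [ex_kl_none]
      linarith [h0 (M.next x c false), h0 (M.next x c true)]

theorem trp_mono (d : Bool) {t t' : ℕ} (h : t ≤ t') : trp M x t d ≤ trp M x t' d := by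
  classical
  refine ex_time (fun c b => ?_) h _
  by_cases e : End x d c
  · rw [next_of_halt e.1]
  · rw [if_neg e]
    split_ifs <;> norm_num

theorem lvp_mono (l : ℕ) (d : Bool) {t t' : ℕ} (h : t ≤ t') : lvp M x l t d ≤ lvp M x l t' d := by
  classical
  refine ex_time (fun o b => ?_) h _
  rcases o with _ | c
  · exact le_rfl
  · by_cases e : Safe l c ∧ End x d c
    · simp only [kl]
      rw [if_pos e.1, next_of_halt e.2.1]
    · simp [gE, e]

theorem trp_add_le (t t' : ℕ) : trp M x t true + trp M x t' false ≤ 1 := by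
  classical
  refine (add_le_add (trp_mono true (le_max_left t t')) (trp_mono false (le_max_right t t'))).trans ?_
  rw [trp, trp, ← ex_add]
  refine ex_le_one (fun c => ?_) _ _
  by_cases h : c.state ∈ M.accept <;> by_cases h' : M.act x c = none <;> simp [End, h, h']

open Classical in
theorem accProb_ex (T : ℕ) :
    M.accProb x T = ex (M.next x) T (fun c => if c.state ∈ M.accept then 1 else 0) (init M) := by
  rw [RandTape.accProb, div_eq_iff (by positivity), mul_comm, ← sum_run, sum_boole,
    Nat.card_eq_fintype_card, Fintype.card_subtype]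
  simp only [conf_run]

theorem trp_le_acc (T : ℕ) : trp M x T true ≤ M.accProb x T := by
  classical
  rw [accProb_ex]
  refine ex_mono (fun c => ?_) _ _
  by_cases h : c.state ∈ M.accept <;> by_cases h' : M.act x c = none <;> simp [End, h, h']

theorem acc_add_le (T : ℕ) : M.accProb x T + trp M x T false ≤ 1 := by
  classical
  rw [accProb_ex, trp, ← ex_add]
  refine ex_le_one (fun c => ?_) _ _
  by_cases h : c.state ∈ M.accept <;> by_cases h' : M.act x c = none <;> simp [End, h, h']

theorem trp_nonneg (T : ℕ) (d : Bool) : 0 ≤ trp M x T d := by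
  classical
  exact ex_nonneg (fun c => by split_ifs <;> norm_num) _ _

theorem visited' (ρ : ℕ → Bool) (i : M.Tape) (τ : ℕ) (j : ℤ)
    (h : (0 ≤ j ∧ j ≤ (M.conf x ρ τ).head i) ∨ ((M.conf x ρ τ).head i ≤ j ∧ j ≤ 0)) :
    ∃ σ ≤ τ, (M.conf x ρ σ).head i = j := by
  induction τ with
  | zero =>
    refine ⟨0, le_rfl, ?_⟩
    change (0 ≤ j ∧ j ≤ 0) ∨ (0 ≤ j ∧ j ≤ 0) at h
    change 0 = j
    omega
  | succ τ ih =>
    by_cases e : (M.conf x ρ (τ + 1)).head i = j
    · exact ⟨_, le_rfl, e⟩
    · have := head_succ x (M.conf x ρ τ) (ρ τ) i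
      rw [RandTape.conf] at h e
      obtain ⟨σ, h1, h2⟩ := ih (by omega)
      exact ⟨σ, by omega, h2⟩

theorem safe_of_card {ρ : ℕ → Bool} {T l : ℕ} {F : Finset (M.Tape × ℤ)} (hF : F.card ≤ l)
    (h : ∀ σ ≤ T, ∀ i, (i, (M.conf x ρ σ).head i) ∈ F) {τ : ℕ} (hτ : τ ≤ T) :
    Safe l (M.conf x ρ τ) := by
  classical
  intro i
  have h1 : ((uIcc 0 ((M.conf x ρ τ).head i)).image fun j => (i, j)) ⊆ F := by
    intro z hz
    obtain ⟨j, hj, rfl⟩ := mem_image.1 hz
    obtain ⟨σ, h2, rfl⟩ := visited' (x := x) ρ i τ j (by have := mem_uIcc.1 hj; omega)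
    exact h σ (by omega) i
  have h2 := card_le_card h1
  rw [card_image_of_injective _ (Prod.mk_right_injective i), Int.card_uIcc, sub_zero] at h2
  omega

theorem run_kl {ρ : ℕ → Bool} {T l : ℕ} (h : ∀ τ ≤ T, Safe l (M.conf x ρ τ)) :
    ∀ τ ≤ T, run (kl M x l) (some (init M)) ρ τ = some (M.conf x ρ τ)
  | 0, _ => rfl
  | τ + 1, hτ => by
    rw [run, run_kl h τ (by omega)]
    simp only [kl]
    rw [if_pos (h τ (by omega)), RandTape.conf]

theorem okProb_le {S T l t : ℕ} (hS : S ≤ l) (hT : T ≤ t) :
    okProb M x S T ≤ lvp M x l t true + lvp M x l t false := by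
  classical
  refine le_trans ?_ (add_le_add (lvp_mono l true hT) (lvp_mono l false hT))
  rw [okProb, div_le_iff₀ (by positivity), mul_comm, lvp, lvp, ← ex_add, ← sum_run,
    Nat.card_eq_fintype_card, Fintype.card_subtype, ← sum_boole]
  refine sum_le_sum fun r _ => ?_
  split_ifs with h
  · obtain ⟨h1, F, h2, h3⟩ := h
    have h4 := fun τ (hτ : τ ≤ T) => safe_of_card (h2.trans hS) h3 hτ
    rw [run_kl h4 T le_rfl]
    by_cases e : (M.conf x (fun τ => if h : τ < T then r ⟨τ, h⟩ else false) T).state ∈ M.accept <;>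
      simp [gE, End, h1, h4 T le_rfl, e]
  · positivity

theorem okProb_le_trp (S T : ℕ) : okProb M x S T ≤ trp M x T true + trp M x T false :=
  (okProb_le le_rfl le_rfl).trans (add_le_add (lvp_le _ _ _) (lvp_le _ _ _))

theorem okProb_eq_one {S T : ℕ} (h : M.HaltsWithin x T)
    (hS : ∀ ρ, ∃ F : Finset (M.Tape × ℤ), F.card ≤ S ∧ ∀ σ ≤ T, ∀ i,
      (i, (M.conf x ρ σ).head i) ∈ F) : okProb M x S T = 1 := by
  rw [okProb, div_eq_one_iff_eq (by positivity),
    Nat.card_congr (Equiv.subtypeUnivEquiv fun r => ⟨h _, hS _⟩)]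
  simp

theorem okProb_short {T : ℕ} (h : M.HaltsWithin x T) : ∃ S, okProb M x S T = 1 := by
  refine ⟨_, okProb_eq_one h fun ρ => ⟨univ ×ˢ Icc (-(T : ℤ)) T, le_rfl, fun σ hσ i => ?_⟩⟩
  have := head_le_time x ρ σ i
  exact mem_product.2 ⟨mem_univ _, mem_Icc.2 (by omega)⟩

/-! ### Machines which always halt -/

theorem halt_mono {ρ : ℕ → Bool} {τ σ : ℕ} (h : M.act x (M.conf x ρ τ) = none) (hσ : τ ≤ σ) :
    M.act x (M.conf x ρ σ) = none := by
  induction σ, hσ using Nat.le_induction with
  | base => exact h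
  | succ σ _ ih => rw [RandTape.conf, next_of_halt ih]; exact ih

theorem conf_congr {ρ ρ' : ℕ → Bool} {τ : ℕ} (h : ∀ i < τ, ρ i = ρ' i) :
    M.conf x ρ τ = M.conf x ρ' τ := by
  rw [conf_run, conf_run, run_congr _ h]

/-- A machine which halts for all random bits cannot repeat a configuration. -/
theorem haltsWithin_Wd {S T : ℕ} (h : M.HaltsWithin x T)
    (hS : ∀ ρ τ i, -(S : ℤ) ≤ (M.conf x ρ τ).head i ∧ (M.conf x ρ τ).head i ≤ S) :
    M.HaltsWithin x (Wd M S x.length) := by
  by_contra h0
  have key : ∀ d, ∃ ρ, M.act x (M.conf x ρ (Wd M S x.length + d)) ≠ none := by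
    intro d
    induction d with
    | zero => exact not_forall.1 h0
    | succ d ih =>
      obtain ⟨ρ, hρ⟩ := ih
      have hg : ∀ τ, Good S x.length (M.conf x ρ τ) := fun τ =>
        good_conf (T := τ) (fun σ _ => hS ρ σ) τ le_rfl
      obtain ⟨s, hs, t, ht, hst, e⟩ := exists_ne_map_eq_of_card_lt_of_maps_to
        (s := range (Wd M S x.length + 1)) (t := range (Wd M S x.length)) (by simp)
        (f := fun τ => enc S x.length (M.conf x ρ τ)) fun τ _ => mem_coe.2 (mem_range.2 (hg τ).enc_lt)
      wlog hlt : s < t generalizing s t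
      · exact this t ht s hs hst.symm e.symm (by omega)
      have e' : M.conf x ρ s = M.conf x ρ t := by
        rw [← (hg s).dec_enc, ← (hg t).dec_enc]
        exact congrArg _ e
      have ht' := mem_range.1 ht
      refine ⟨fun τ => if τ < t then ρ τ else ρ (τ - t + s), fun h1 => hρ ?_⟩
      have h2 : ∀ j, M.conf x (fun τ => if τ < t then ρ τ else ρ (τ - t + s)) (t + j) =
          M.conf x ρ (s + j) := by
        intro j
        induction j with
        | zero => exact (conf_congr fun i hi => if_pos hi).trans e'.symm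
        | succ j ih =>
          rw [← add_assoc, ← add_assoc, RandTape.conf, RandTape.conf, ih, if_neg (by omega)]
          congr 2
          omega
      have h3 := halt_mono (σ := t + (Wd M S x.length + d - s)) h1 (by omega)
      rwa [h2, show s + (Wd M S x.length + d - s) = Wd M S x.length + d by omega] at h3
  obtain ⟨ρ, hρ⟩ := key T
  exact hρ (halt_mono (h ρ) (Nat.le_add_left _ _))

theorem exists_Wd_le (M : RandTape A) : ∃ c, ∀ S n, Wd M S n ≤ (2 ^ S * (n + 2)) ^ c := by
  refine ⟨Nat.card M.State + (1 + (1 + 3 * Nat.card M.Sym) * Nat.card M.Tape), fun S n => ?_⟩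
  have h0 : 1 ≤ 2 ^ S := Nat.one_le_two_pow
  have h1 : n + 2 ≤ 2 ^ S * (n + 2) := Nat.le_mul_of_pos_left _ h0
  have h2 : 2 * 2 ^ S ≤ 2 ^ S * (n + 2) := by nlinarith
  have h3 : S < 2 ^ S := Nat.lt_two_pow_self
  set Z := 2 ^ S * (n + 2)
  rw [Wd, Bt, pow_add Z, pow_add Z, pow_one, pow_mul Z, pow_add Z, pow_one]
  refine Nat.mul_le_mul (Nat.lt_two_pow_self.le.trans (Nat.pow_le_pow_left (by omega) _))
    (Nat.mul_le_mul h1 (Nat.pow_le_pow_left (Nat.mul_le_mul (by omega) ?_) _))
  calc Nat.card M.Sym ^ (2 * S + 1) ≤ (2 ^ Nat.card M.Sym) ^ (2 * S + 1) :=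
        Nat.pow_le_pow_left Nat.lt_two_pow_self.le _
    _ = (2 ^ S * 2 ^ S * 2) ^ Nat.card M.Sym := by
        rw [← pow_mul, ← pow_add, ← pow_succ, ← pow_mul]
        congr 1
        ring
    _ ≤ (Z ^ 3) ^ Nat.card M.Sym := Nat.pow_le_pow_left (by
        rw [pow_succ, pow_two]
        exact Nat.mul_le_mul (Nat.mul_le_mul (by omega) (by omega)) (by omega)) _
    _ = _ := (pow_mul _ _ _).symm

/-! ### The stopped machine on codes -/

theorem good_dec (S n u : ℕ) : Good S n (dec M S n u) := by
  refine ⟨Nat.le_of_lt_succ (Nat.mod_lt _ (by omega)), fun i => ?_, fun i j hj => if_neg hj⟩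
  have := Nat.mod_lt (rc M S n u i) (show 2 * S + 1 > 0 by omega)
  simp only [dec]
  omega

theorem good_next {S : ℕ} {c : M.Conf} (h : Good S x.length c) (hs : Safe S c) (b : Bool) :
    Good S x.length (M.next x c b) := by
  refine ⟨?_, fun i => ?_, fun i j hj => ?_⟩
  · rw [next_eq]
    exact (appIn_eq _ h.inHead).le.trans (min_le_right _ _)
  · have := head_succ x c b i
    have := hs i
    omega
  · rw [next_eq]
    have := h.head i
    exact (update_of_ne (by rintro rfl; exact hj this) _ _).trans (h.tape i j hj)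

theorem good_init (S n : ℕ) : Good S n (init M) :=
  ⟨Nat.zero_le _, fun _ => ⟨by simp [init], by simp [init]⟩, fun _ _ _ => rfl⟩

variable (M x)

open Classical in
/-- The step of the stopped machine on codes. -/
noncomputable def cf (l u : ℕ) (b : Bool) : ℕ :=
  if u < Wd M l x.length ∧ Safe l (dec M l x.length u) then
    enc l x.length (M.next x (dec M l x.length u) b) else Wd M l x.length

open Classical in
/-- The final test on codes. -/
noncomputable def cg (l : ℕ) (d : Bool) (u : ℕ) : Bool :=
  decide (u < Wd M l x.length ∧ Safe l (dec M l x.length u) ∧ End x d (dec M l x.length u))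

/-- Decoding. -/
noncomputable def dc (l u : ℕ) : Option M.Conf :=
  if u < Wd M l x.length then some (dec M l x.length u) else none

variable {M x}

theorem cf_lt (l u : ℕ) (b : Bool) : cf M x l u b < Wd M l x.length + 1 := by
  unfold cf
  split_ifs with h
  · exact (good_next (good_dec _ _ _) h.2 b).enc_lt.trans (Nat.lt_succ_self _)
  · exact Nat.lt_succ_self _

theorem dc_cf (l u : ℕ) (b : Bool) : dc M x l (cf M x l u b) = kl M x l (dc M x l u) b := by
  unfold cf
  split_ifs with h
  · have hg := good_next (good_dec _ _ _) h.2 b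
    rw [dc, if_pos hg.enc_lt, hg.dec_enc, dc, if_pos h.1]
    simp only [kl]
    rw [if_pos h.2]
  · rw [dc, if_neg (lt_irrefl _), dc]
    split_ifs with h1
    · simp only [kl]
      rw [if_neg fun h2 => h ⟨h1, h2⟩]
    · rfl

theorem ex_cf (l t : ℕ) (d : Bool) :
    ex (cf M x l) t (fun u => ((cg M x l d u).toNat : ℝ)) (enc l x.length (init M)) =
      lvp M x l t d := by
  have h := ex_map (f := cf M x l) (dc M x l) (dc_cf l) (fun o => ((gE M x l d o).toNat : ℝ)) t
    (enc l x.length (init M))
  rw [dc, if_pos (good_init _ _).enc_lt, (good_init _ _).dec_enc] at h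
  rw [lvp, ← h]
  congr 1
  funext u
  unfold cg dc
  split_ifs with h1
  · simp only [gE]
    congr 2
    rw [Bool.eq_iff_iff]
    simp only [decide_eq_true_eq]
    exact and_iff_right h1
  · simp [gE, h1]

variable {α : Type} [Enc A α] {B : Bud A}

theorem pbd_pow_log {L : α → ℕ} (hL : PBd B L) (m : ℕ) :
    PBd B fun a => m ^ (2 * Nat.log 2 (L a) + 1) := by
  refine (((hL.add (PBd.const 1)).pow (2 * m)).mul (PBd.const (2 ^ m))).mono fun a => ?_
  have h1 : 2 ^ Nat.log 2 (L a) ≤ L a + 1 := by
    rcases Nat.eq_zero_or_pos (L a) with h | h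
    · simp [h]
    · exact (Nat.pow_log_le_self 2 h.ne').trans (Nat.le_succ _)
  calc m ^ (2 * Nat.log 2 (L a) + 1) ≤ (2 ^ m) ^ (2 * Nat.log 2 (L a) + 1) :=
        Nat.pow_le_pow_left Nat.lt_two_pow_self.le _
    _ = (2 ^ Nat.log 2 (L a)) ^ (2 * m) * 2 ^ m := by
        rw [← pow_mul, ← pow_mul, ← pow_add]
        congr 1
        ring
    _ ≤ _ := Nat.mul_le_mul_right _ (Nat.pow_le_pow_left h1 _)

/-- The stopped machine with the window `log L` and the time `L` is a walk in small space. -/
theorem walk_mach [Finite A] (M : RandTape A) (hB : ∀ x, x.length ≤ B.b x) (d : Bool) :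
    Walk B (fun q : Inp A × ℕ => Wd M (Nat.log 2 q.2) q.1.length + 1) (fun q => q.2)
      (fun q => enc (Nat.log 2 q.2) q.1.length (init M)) (fun q => cf M q.1 (Nat.log 2 q.2))
      fun q => cg M q.1 (Nat.log 2 q.2) d := by
  classical
  have hl : SP B fun q : Inp A × ℕ => Nat.log 2 q.2 := F43.sp_log2 SP.snd'
  have hb : PBd B fun q : Inp A × ℕ => Nat.card M.Sym ^ (2 * Nat.log 2 q.2 + 1) :=
    pbd_pow_log (PBd.of_SP SP.snd') _
  have hn : SP B fun q : Inp A × ℕ => q.1.length := sp_len hB SP.fst'
  have hX : SP B fun p : (Inp A × ℕ) × ℕ => p.1.1 := SP.fst'.fst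
  have hl' := hl.comp (SP.fst' (β := ℕ))
  have hb' := hb.comp (SP.fst' (β := ℕ))
  have hn' := hn.comp (SP.fst' (β := ℕ))
  have hu : SP B fun p : (Inp A × ℕ) × ℕ => p.2 := SP.snd'
  have hW := sp_Wd hl' hb' hn'
  have h1 := hu.decide_lt hW
  have h2 : SP B fun p : (Inp A × ℕ) × ℕ => decide (Safe (Nat.log 2 p.1.2)
      (dec M (Nat.log 2 p.1.2) p.1.1.length p.2)) := by
    refine (sp_forall (p := fun (i : M.Tape) (p : (Inp A × ℕ) × ℕ) =>
      0 < rc M (Nat.log 2 p.1.2) p.1.1.length p.2 i % (2 * Nat.log 2 p.1.2 + 1) ∧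
        rc M (Nat.log 2 p.1.2) p.1.1.length p.2 i % (2 * Nat.log 2 p.1.2 + 1) <
          2 * Nat.log 2 p.1.2) fun i => ?_).congr fun p => ?_
    · have h3 := (sp_rc hl' hb' hn' hu i).mod (((SP.const 2).mul hl').add (SP.const 1))
      exact (SP.decide_and ((SP.const 0).decide_lt h3)
        (h3.decide_lt ((SP.const 2).mul hl'))).congr fun p => by congr
    · rw [Bool.eq_iff_iff]
      simp only [decide_eq_true_eq]
      refine forall_congr' fun i => ?_
      simp only [dec]
      omega
  have h3 : SP B fun p : (Inp A × ℕ) × ℕ => decide (End p.1.1 d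
      (dec M (Nat.log 2 p.1.2) p.1.1.length p.2)) :=
    ((sp_view hl' hb' hn' hu hX fun v => if M.step v.1 v.2.1 v.2.2 = none ∧
      (v.1 ∈ M.accept ↔ d = true) then 1 else 0).decide_eq (SP.const 1)).congr fun p => by
        rw [Bool.eq_iff_iff, decide_eq_true_eq, decide_eq_true_eq, view]
        split_ifs with h
        · exact ⟨fun _ => h, fun _ => rfl⟩
        · exact ⟨False.elim, fun e => absurd e h⟩
  refine ⟨(sp_Wd hl hb hn).add (SP.const 1), SP.snd', sp_init hl hb hn, fun b => ?_,
    (SP.decide_and h1 (SP.decide_and h2 h3)).congr fun p => by unfold cg; congr,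
    fun q => (good_init _ _).enc_lt.trans (Nat.lt_succ_self _), fun q u _ b => cf_lt _ _ _⟩
  exact (SP.ite (SP.decide_and h1 h2) (sp_next hB hl' hb' hu hX b) hW).congr fun p => by
    unfold cf; congr

end Vale.Agent.N313
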