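import Vale.Agent.N313.Out

/-! The acceptance probability of a randomized machine is approximated in small space. -/

namespace Vale.Agent.N313

open Finset Function Vale.Agent.Lib.Space Vale.Agent.P313 Vale.Agent.P313.Red Vale.Agent.P313.Full

variable {A A' : Type}

theorem Walk.comp {α β : Type} [Enc A α] [Enc A β] {B : Bud A} {W T u0 : α → ℕ}
    {f : α → ℕ → Bool → ℕ} {g : α → ℕ → Bool} (h : Walk B W T u0 f g) {φ : β → α} (hφ : SP B φ) :
    Walk B (fun b => W (φ b)) (fun b => T (φ b)) (fun b => u0 (φ b)) (fun b => f (φ b))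
      fun b => g (φ b) :=
  ⟨h.hW.comp hφ, h.hT.comp hφ, h.hu.comp hφ,
    fun b => (h.hf b).comp ((hφ.comp SP.fst').pair SP.snd'),
    h.hg.comp ((hφ.comp SP.fst').pair SP.snd'), fun _ => h.lt0 _, fun _ => h.lt _⟩

/-- The estimates for all levels and precisions. -/
theorem exists_est [Finite A] (M : RandTape A) {B : Bud A} (hB : ∀ x, x.length ≤ B.b x) :
    ∃ m : Bool → Inp A × ℕ × ℕ → ℕ, (∀ d, SP B (m d)) ∧ ∀ d x (L P : ℕ),
      |(m d (x, L, P) : ℝ) - lvp M x (Nat.log 2 L) L d * (P + 1 : ℕ)| ≤ 2 := by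
  have h := fun d => ((walk_mach M hB d).comp (φ := fun q : Inp A × ℕ × ℕ => (q.1, q.2.1))
    (SP.fst'.pair SP.snd'.fst)).apx (P := fun q => q.2.2 + 1) (SP.snd'.snd.add (SP.const 1))
    fun _ => Nat.succ_pos _
  choose m h1 h2 using h
  refine ⟨m, h1, fun d x L P => ?_⟩
  have h3 := h2 d x (x, L, P) ⟨rfl, trivial, trivial⟩
  rwa [ex_cf] at h3

/-- At the level `L` the stopped machine halts with probability at least `1 - 1 / Q`. -/
def Lev (M : RandTape A) (x : List A) (Q L : ℕ) : Prop :=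
  1 - 1 / (Q : ℝ) ≤ lvp M x (Nat.log 2 L) L true + lvp M x (Nat.log 2 L) L false

theorem lev_of_ok {M : RandTape A} {x : List A} {Q S T : ℕ} (h : 1 - 1 / (Q : ℝ) ≤ okProb M x S T) :
    Lev M x Q (2 ^ S + T) :=
  h.trans (okProb_le (Nat.le_log_of_pow_le (by omega) (Nat.le_add_right _ _)) (Nat.le_add_left _ _))

/-- The search for a sufficient level. -/
theorem loop_main (M : RandTape A) (X : List A' → List A) {Q : List A' → ℕ} (hQ0 : ∀ y, 0 < Q y)
    {B : Bud A'} (hQ : SP B fun y : Inp A' => Q y) {m : Bool → Inp A' × ℕ × ℕ → ℕ}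
    (hm : ∀ d, SP B (m d)) (hm' : ∀ d y (L P : ℕ),
      |(m d (y, L, P) : ℝ) - lvp M (X y) (Nat.log 2 L) L d * (P + 1 : ℕ)| ≤ 2)
    (hB : ∀ y, sInf {L | Lev M (X y) (Q y) L} ≤ B.b y) :
    ∃ t v : List A' → ℕ,
      (SP B fun y : Wr fun y => ∃ L, Lev M (X y) (Q y) L => 2 ^ t y.val) ∧
      (SP B fun y : Wr fun y => ∃ L, Lev M (X y) (Q y) L => v y.val) ∧
      ∀ y, (∃ L, Lev M (X y) (Q y) L) → v y < 2 ^ t y ∧ ∀ T,
        1 - 1 / (Q y : ℝ) ≤ trp M (X y) T true + trp M (X y) T false →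
        |(v y : ℝ) / 2 ^ t y - M.accProb (X y) T| ≤ 3 / Q y := by
  classical
  obtain ⟨P, hP⟩ : ∃ P : List A' → ℕ, ∀ y, P y = 2 ^ Nat.size (10 * Q y) := ⟨_, fun _ => rfl⟩
  have hP1 : ∀ y, 10 * Q y < P y := fun y => hP y ▸ Nat.lt_size_self _
  have hP2 : ∀ y, P y - 1 + 1 = P y := fun y => by have := hP1 y; omega
  obtain ⟨st, hst⟩ : ∃ st : List A' → ℕ → Prop, ∀ y L, st y L ↔
      P y * Q y ≤ (m true (y, L, P y - 1) + m false (y, L, P y - 1) + 4) * Q y + P y :=
    ⟨_, fun _ _ => Iff.rfl⟩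
  have e1 : ∀ d y L, |(m d (y, L, P y - 1) : ℝ) - lvp M (X y) (Nat.log 2 L) L d * P y| ≤ 2 :=
    fun d y L => by simpa only [hP2] using hm' d y L (P y - 1)
  have st_of : ∀ y L, Lev M (X y) (Q y) L → st y L := by
    intro y L h
    have h0 : (0 : ℝ) < Q y := by exact_mod_cast hQ0 y
    have h1 := (abs_le.1 (e1 true y L)).1
    have h2 := (abs_le.1 (e1 false y L)).1
    have h3 := mul_le_mul_of_nonneg_right h (show (0 : ℝ) ≤ P y by positivity)
    have h4 : (1 - 1 / (Q y : ℝ)) * P y ≤ m true (y, L, P y - 1) + m false (y, L, P y - 1) + 4 := by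
      linarith
    have h5 := mul_le_mul_of_nonneg_right h4 h0.le
    have h6 : (1 - 1 / (Q y : ℝ)) * P y * Q y = P y * Q y - P y := by field_simp
    have h7 : (P y : ℝ) * Q y ≤
        (m true (y, L, P y - 1) + m false (y, L, P y - 1) + 4) * Q y + P y := by linarith
    rw [hst]
    exact_mod_cast h7
  have sP' : SP B fun y : Inp A' => 2 ^ Nat.size (10 * Q y) :=
    sp_two_pow_size ((SP.const 10).mul hQ)
  have sP : SP B fun y : Inp A' => P y := sP'.congr fun y => (hP y).symm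
  have sm : ∀ d, SP B fun q : Inp A' × ℕ => m d (q.1, q.2, P q.1 - 1) := fun d =>
    (hm d).comp (SP.fst'.pair (SP.snd'.pair ((sP.comp SP.fst').sub (SP.const 1))))
  have sst : SP B fun q : Inp A' × ℕ => decide (st q.1 q.2) :=
    (((sP.comp SP.fst').mul (hQ.comp SP.fst')).decide_le
      (((((sm true).add (sm false)).add (SP.const 4)).mul (hQ.comp SP.fst')).add
        (sP.comp SP.fst'))).congr fun q => decide_eq_decide.2 (hst _ _).symm
  have key : ∀ k : ℕ, (fun s : ℕ => s + 1)^[k] 0 = k := by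
    intro k
    induction k with
    | zero => rfl
    | succ k ih => rw [iterate_succ_apply', ih]
  have hne : ∀ y, (∃ L, Lev M (X y) (Q y) L) → {L | st y L}.Nonempty := fun y ⟨L, h⟩ =>
    ⟨L, st_of y L h⟩
  have sL : SP B fun y : Wr fun y => ∃ L, Lev M (X y) (Q y) L => sInf {L | st y.val L} := by
    refine SP.while' (init := fun _ => 0) (step := fun _ s => s + 1)
      (cont := fun y s => !decide (st y.val s)) (bd := fun y => B.b y.val) (SP.const 0)
      (SP.snd'.add (SP.const 1)) (sst.comp ((sp_val.comp SP.fst').pair SP.snd')).not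
      (PBd.budget sp_val) fun x y hy => ?_
    obtain ⟨rfl, h⟩ : y.val = x ∧ _ := hy
    refine ⟨sInf {L | st y.val L}, (key _).symm, ?_, fun k hk => ?_, fun k hk => ?_⟩
    · rw [key]
      simpa using Nat.sInf_mem (hne _ h)
    · rw [key]
      simpa using Nat.notMem_of_lt_sInf hk
    · rw [key]
      exact hk.trans ((Nat.sInf_le (st_of _ _ (Nat.sInf_mem h))).trans (hB _))
  refine ⟨fun y => Nat.size (10 * Q y),
    fun y => min (m true (y, sInf {L | st y L}, P y - 1)) (P y - 1), sP'.comp sp_val,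
    ((sm true).comp (sp_val.pair sL)).min ((sP.comp sp_val).sub (SP.const 1)), fun y hy =>
    ⟨(min_le_right _ _).trans_lt (by have := hP y; have := hP2 y; beta_reduce; omega),
      fun T hT => ?_⟩⟩
  have hs : st y (sInf {L | st y L}) := Nat.sInf_mem (hne y hy)
  beta_reduce
  generalize sInf {L | st y L} = L at hs ⊢
  have h0 : (0 : ℝ) < Q y := by exact_mod_cast hQ0 y
  have hp : (10 : ℝ) * Q y < P y := by exact_mod_cast hP1 y
  have hp0 : (0 : ℝ) < P y := by linarith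
  have h1 := abs_le.1 (e1 true y L)
  have h2 := abs_le.1 (e1 false y L)
  have h7 : (P y : ℝ) * Q y ≤
      (m true (y, L, P y - 1) + m false (y, L, P y - 1) + 4) * Q y + P y := by
    exact_mod_cast (hst _ _).1 hs
  have a1 := lvp_le (M := M) (x := X y) (Nat.log 2 L) L true
  have a2 := lvp_le (M := M) (x := X y) (Nat.log 2 L) L false
  have a3 := trp_add_le (M := M) (x := X y) L T
  have a4 := trp_add_le (M := M) (x := X y) T L
  have a5 := trp_le_acc (M := M) (x := X y) T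
  have a6 := acc_add_le (M := M) (x := X y) T
  have a7 := trp_nonneg (M := M) (x := X y) T false
  have e2 : (2 : ℝ) ^ Nat.size (10 * Q y) = P y := by rw [hP]; push_cast; rfl
  rw [e2]
  set ε : ℝ := 1 / Q y with hε
  have b1 : (3 : ℝ) / Q y = 3 * ε := by rw [hε]; ring
  have b2 : 10 ≤ ε * P y := by
    rw [hε, one_div_mul_eq_div, le_div_iff₀ h0]
    exact hp.le
  have b3 : (P y : ℝ) ≤ m true (y, L, P y - 1) + m false (y, L, P y - 1) + 4 + ε * P y := by
    have := div_le_div_of_nonneg_right h7 h0.le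
    rw [mul_div_cancel_right₀ _ h0.ne', add_div, mul_div_cancel_right₀ _ h0.ne'] at this
    rwa [hε, one_div_mul_eq_div]
  set p := M.accProb (X y) T
  have c1 : lvp M (X y) (Nat.log 2 L) L true * P y ≤ (p + ε) * P y :=
    mul_le_mul_of_nonneg_right (by linarith) hp0.le
  have c2 : lvp M (X y) (Nat.log 2 L) L false * P y ≤ (1 - p + ε) * P y :=
    mul_le_mul_of_nonneg_right (by linarith) hp0.le
  have c3 : p * P y ≤ P y := mul_le_of_le_one_left hp0.le (by linarith)
  have c4 : ((P y - 1 : ℕ) : ℝ) = P y - 1 := by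
    rw [eq_sub_iff_add_eq]
    exact_mod_cast hP2 y
  rw [b1, abs_le, le_sub_iff_add_le, sub_le_iff_le_add, le_div_iff₀ hp0, div_le_iff₀ hp0,
    Nat.cast_min, c4]
  constructor
  · refine le_min ?_ ?_ <;> nlinarith
  · refine (min_le_left _ _).trans ?_
    nlinarith

/-- The approximation of the acceptance probability. -/
theorem approx [Finite A] (M : RandTape A) (c : ℕ) :
    ∃ (D : MultiTape (Option A)) (i : D.Tape) (e : D.Sym) (C : ℕ), ∀ (x : List A) (k S T : ℕ),
      1 - 1 / (2 ^ k * (x.length + 2) ^ c : ℝ) ≤ okProb M x S T →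
      D.UsesAtMost (x.map some ++ List.replicate k none)
        (C * Real.log (2 ^ (S + k) * (T + 1) * (x.length + 2) : ℕ)) ∧
      D.act (x.map some ++ List.replicate k none) (D.conf (x.map some ++ List.replicate k none)
        ((2 ^ (S + k) * (T + 1) * (x.length + 2)) ^ C)) = none ∧
      |out D i e (D.conf (x.map some ++ List.replicate k none)
        ((2 ^ (S + k) * (T + 1) * (x.length + 2)) ^ C)) - M.accProb x T| ≤
        3 / (2 ^ k * (x.length + 2) ^ c : ℝ) := by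
  set Q : List (Option A) → ℕ := fun y =>
    2 ^ (y.length - (strip y).length) * ((strip y).length + 2) ^ c with hQ
  set B : Bud (Option A) := ⟨fun y => y.length + 2 ^ (y.length - (strip y).length) +
    sInf {L | Lev M (strip y) (Q y) L}⟩ with hB
  have hB1 : ∀ y, y.length ≤ B.b y := fun y => (Nat.le_add_right _ _).trans (Nat.le_add_right _ _)
  have hn : SP B fun y : Inp (Option A) => (strip y).length := sp_strip_len hB1
  have hk : SP B fun y : Inp (Option A) => y.length - (strip y).length :=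
    (sp_len hB1 SP.id).sub hn
  have sQ : SP B fun y : Inp (Option A) => Q y :=
    (F43.sp_pow (SP.const 2) hk ((PBd.budget SP.id).mono fun y =>
      (Nat.le_add_left _ _).trans (Nat.le_add_right _ _))).mul
      ((hn.add (SP.const 2)).pow_const c)
  obtain ⟨m, m1, m2⟩ := exists_est M (B := ⟨List.length⟩) fun _ => le_rfl
  obtain ⟨t, v, h1, h2, h3⟩ := loop_main M strip (Q := Q) (fun y => by simp only [hQ]; positivity)
    sQ (m := fun d q => m d (strip q.1, q.2))
    (fun d => sp_strip (m1 d) fun y => (strip_length_le y).trans (hB1 y))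
    (fun d y L P => m2 d _ L P) fun y => Nat.le_add_left _ _
  obtain ⟨D, i, e, C, hD⟩ := sp_out hB1 h1 h2 3
  refine ⟨D, i, e, C, fun x k S T h => ?_⟩
  set y := x.map some ++ List.replicate k none with hy
  have e1 : strip y = x := strip_pad x k
  have e2 : y.length = x.length + k := by simp [hy]
  have e3 : Q y = 2 ^ k * (x.length + 2) ^ c := by
    simp only [hQ, e1, e2, Nat.add_sub_cancel_left]
  have e4 : (2 ^ k * (x.length + 2) ^ c : ℝ) = Q y := by rw [e3]; push_cast; rfl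
  rw [e4] at h ⊢
  have h4 : Lev M (strip y) (Q y) (2 ^ S + T) := e1 ▸ lev_of_ok h
  obtain ⟨h5, h6⟩ := h3 y ⟨_, h4⟩
  have h7 := h6 T (by rw [e1]; exact h.trans (okProb_le_trp S T))
  have h8 : sInf {L | Lev M (strip y) (Q y) L} ≤ 2 ^ S + T := Nat.sInf_le h4
  have a1 : 1 ≤ 2 ^ S := Nat.one_le_two_pow
  have a2 : k < 2 ^ k := Nat.lt_two_pow_self
  have a3 : 2 ^ (S + k) * (T + 1) * (x.length + 2) = 2 ^ S * 2 ^ k * (T + 1) * (x.length + 2) := by
    rw [pow_add]
  have a4 : 2 ^ k ≤ 2 ^ S * 2 ^ k := Nat.le_mul_of_pos_left _ a1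
  have a5 : 2 ^ S ≤ 2 ^ S * 2 ^ k := Nat.le_mul_of_pos_right _ (by omega)
  have a6 : 2 ^ S * 2 ^ k ≤ 2 ^ S * 2 ^ k * (T + 1) := Nat.le_mul_of_pos_right _ (by omega)
  have a7 : T + 1 ≤ 2 ^ S * 2 ^ k * (T + 1) := Nat.le_mul_of_pos_left _ (by omega)
  have a8 : 2 ^ S * 2 ^ k * (T + 1) * 2 ≤ 2 ^ S * 2 ^ k * (T + 1) * (x.length + 2) :=
    Nat.mul_le_mul_left _ (by omega)
  have a9 : x.length + 2 ≤ 2 ^ S * 2 ^ k * (T + 1) * (x.length + 2) :=
    Nat.le_mul_of_pos_left _ (by omega)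
  have h9 := hD y (2 ^ (S + k) * (T + 1) * (x.length + 2)) ⟨_, h4⟩ h5 (by omega) (by
    have : B.b y ≤ x.length + k + 2 ^ k + (2 ^ S + T) := by
      simp only [hB, e2]
      rw [show (strip y).length = x.length from congrArg _ e1, Nat.add_sub_cancel_left]
      omega
    rw [a3]
    generalize 2 ^ S * 2 ^ k * (T + 1) * (x.length + 2) = Z at *
    have : 4 * Z ≤ Z ^ 3 := by
      rw [pow_succ, pow_two]
      exact Nat.mul_le_mul_right _ (Nat.mul_le_mul (show 2 ≤ Z by omega) (show 2 ≤ Z by omega))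
    omega)
  rw [h9.2.2, ← e1]
  exact ⟨e1 ▸ h9.1, e1 ▸ h9.2.1, h7⟩

/-- Promise problems of randomized machines which always halt are solved deterministically. -/
theorem solves [Finite A] {s : ℕ → ℝ} {a b : ℝ} (hs : ∃ N : ℕ, ∀ n ≥ N, Real.log n ≤ s n)
    (hab : a < b)
    {Yes No : Language A} (h : RandSolves s a b Yes No) :
    ∃ L ∈ SPACE A s, (∀ x ∈ Yes, x ∈ L) ∧ ∀ x ∈ No, x ∉ L := by
  classical
  obtain ⟨M, ⟨C, N, hS⟩, hM⟩ := h
  obtain ⟨N', hs⟩ := hs
  obtain ⟨θ, h1, h2⟩ := exists_rat_btwn (show a + (b - a) / 3 < b - (b - a) / 3 by linarith)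
  obtain ⟨Q, hQ⟩ := exists_nat_gt (9 / (b - a))
  have hba : 0 < b - a := by linarith
  have hQ0 : (0 : ℝ) < Q := lt_trans (by positivity) hQ
  have hQ1 : 3 / (Q : ℝ) ≤ (b - a) / 3 := by
    rw [div_lt_iff₀ hba] at hQ
    rw [div_le_iff₀ hQ0]
    linarith
  have hQ2 : 1 - 1 / (Q : ℝ) ≤ 1 := sub_le_self _ (by positivity)
  set B : Bud A := ⟨fun x => x.length + sInf {L | Lev M x Q L}⟩ with hB
  obtain ⟨m, m1, m2⟩ := exists_est M (B := B) fun _ => Nat.le_add_right _ _
  obtain ⟨t, v, h3, h4, h5⟩ := loop_main M id (Q := fun _ => Q) (fun _ => by exact_mod_cast hQ0)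
    (SP.const Q) m1 m2 fun y => Nat.le_add_left _ _
  have hP : ∀ x, ∃ L, Lev M (id x) Q L := fun x => by
    obtain ⟨T, hT, -⟩ := hM x
    obtain ⟨S, hS⟩ := okProb_short hT
    exact ⟨_, lev_of_ok (hQ2.trans_eq hS.symm)⟩
  have h6 : ∀ x, ∃ T, (x ∈ No → M.accProb x T ≤ a) ∧ (x ∈ Yes → b ≤ M.accProb x T) ∧
      |(v x : ℝ) / 2 ^ t x - M.accProb x T| ≤ (b - a) / 3 := fun x => by
    obtain ⟨T, hT, h6, h7⟩ := hM x
    obtain ⟨S, hS⟩ := okProb_short hT
    exact ⟨T, h6, h7, ((h5 x (hP x)).2 T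
      ((hQ2.trans_eq hS.symm).trans (okProb_le_trp S T))).trans hQ1⟩
  have h7 : RSP B fun x : Inp A => (v x : ℝ) / 2 ^ t x :=
    (RSP.natCast (h4.comp (sp_mk hP))).div (Hi.rsp_two_pow (h3.comp (sp_mk hP)))
  obtain ⟨c, hc⟩ := exists_Wd_le M
  refine ⟨{x | (θ : ℝ) ≤ (v x : ℝ) / 2 ^ t x}, SP.mem_SPACE ((RSP.ratCast θ).decide_le h7)
    (fun x => decide_eq_true_iff) ⟨2 * (c + 3 : ℕ) * (|C| + 2), max 2 (max N N'), fun x hx => ?_⟩,
    fun x hx => ?_, fun x hx => ?_⟩
  · have n2 : 2 ≤ x.length := le_of_max_le_left hx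
    have h8 := hS x (le_of_max_le_left (le_of_max_le_right hx))
    have h9 := hs _ (le_of_max_le_right (le_of_max_le_right hx))
    have h10 : 0 ≤ Real.log x.length := Real.log_natCast_nonneg _
    set S := ⌊C * s x.length⌋₊ with hSd
    obtain ⟨T, hT, -⟩ := hM x
    have h11 := haltsWithin_Wd (S := S) hT fun ρ τ i => by
      have := Nat.le_floor (head_le_space h8 ρ τ i)
      omega
    have h12 : okProb M x S (Wd M S x.length) = 1 := okProb_eq_one h11 fun ρ => by
      obtain ⟨F, hF, hF'⟩ := h8 ρ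
      exact ⟨F, Nat.le_floor hF, fun σ _ => hF' σ⟩
    have h13 : sInf {L | Lev M x Q L} ≤ 2 ^ S + Wd M S x.length :=
      Nat.sInf_le (lev_of_ok (hQ2.trans_eq h12.symm))
    have h14 := hc S x.length
    have a1 : 1 ≤ 2 ^ S := Nat.one_le_two_pow
    have a2 : x.length + 2 ≤ 2 ^ S * (x.length + 2) := Nat.le_mul_of_pos_left _ a1
    have a3 : 2 ^ S ≤ 2 ^ S * (x.length + 2) := Nat.le_mul_of_pos_right _ (by omega)
    have h15 : B.b x + 2 ≤ (2 ^ S * (x.length + 2)) ^ (c + 3) := by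
      simp only [hB]
      generalize 2 ^ S * (x.length + 2) = Z at *
      have b1 : Z ^ c ≤ Z ^ (c + 1) := Nat.pow_le_pow_right (by omega) (by omega)
      have b2 : Z ≤ Z ^ (c + 1) := Nat.le_self_pow (by omega) _
      have b3 : Z ^ (c + 1) * (2 * 2) ≤ Z ^ (c + 3) := by
        rw [show c + 3 = c + 1 + 2 by omega, pow_add Z (c + 1), pow_two]
        exact Nat.mul_le_mul_left _ (Nat.mul_le_mul (by omega) (by omega))
      omega
    refine (log_le_of_le_pow h15).1.trans ?_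
    rw [mul_assoc _ (|C| + 2)]
    refine mul_le_mul_of_nonneg_left ?_ (by positivity)
    have h16 : (S : ℝ) ≤ |C| * s x.length := by
      rcases le_total 0 (C * s x.length) with h | h
      · exact (Nat.floor_le h).trans (mul_le_mul_of_nonneg_right (le_abs_self _) (by linarith))
      · rw [hSd, Nat.floor_of_nonpos h, Nat.cast_zero]
        exact mul_nonneg (abs_nonneg _) (by linarith)
    have h17 : Real.log ((x.length : ℝ) + 2) ≤ 2 * Real.log x.length := by
      have h18 : (2 : ℝ) ≤ x.length := by exact_mod_cast n2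
      rw [← Nat.cast_ofNat (R := ℝ) (n := 2), ← Real.log_pow]
      exact Real.log_le_log (by positivity) (by push_cast; nlinarith)
    have h19 : Real.log 2 ≤ 1 := by linarith [Real.log_two_lt_d9]
    push_cast
    rw [Real.log_mul (by positivity) (by positivity), Real.log_pow]
    have h20 : (0 : ℝ) ≤ S := Nat.cast_nonneg _
    nlinarith
  · obtain ⟨T, -, h8, h9⟩ := h6 x
    have := h8 hx
    have := (abs_le.1 h9).1
    change (θ : ℝ) ≤ _
    linarith
  · obtain ⟨T, h8, -, h9⟩ := h6 x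
    have := h8 hx
    have := (abs_le.1 h9).2
    change ¬ (θ : ℝ) ≤ _
    linarith

theorem solves_of {s : ℕ → ℝ} {a b : ℝ} (ha : 0 ≤ a) (hb : b ≤ 1) {Yes No : Language A}
    (h : ∃ L ∈ SPACE A s, (∀ x ∈ Yes, x ∈ L) ∧ ∀ x ∈ No, x ∉ L) : RandSolves s a b Yes No := by
  obtain ⟨L, ⟨M, hD, C, N, hS⟩, hY, hN⟩ := h
  refine ⟨Easy.rand M, ⟨C, N, fun x hx ρ => ?_⟩, fun x => ?_⟩
  · obtain ⟨F, h1, h2⟩ := hS x hx
    exact ⟨F, h1, fun τ i => by rw [Easy.conf_rand]; exact h2 τ i⟩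
  · obtain ⟨τ, h1, h2⟩ := hD x
    have h4 : ∀ ρ, ((Easy.rand M).conf x ρ τ).state ∈ (Easy.rand M).accept ↔ x ∈ L := by
      intro ρ
      rw [Easy.conf_rand]
      exact h2
    refine ⟨τ, fun ρ => ?_, ?_⟩
    · rw [Easy.conf_rand, Easy.act_toR, h1]
      rfl
    · unfold RandTape.accProb
      simp only [h4]
      exact ⟨fun hx => by simpa [hN x hx] using ha, fun hx => by simpa [hY x hx] using hb⟩

end Vale.Agent.N313
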