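import Vale.Agent.N313.Mach

/-! Promises, padded inputs and outputs for the programs with bounded registers. -/

namespace Vale.Agent.N313

open Finset Function Vale.Agent.Lib.Space Vale.Agent.P313

variable {A : Type}

/-! ### Promises -/

/-- The input word, for which `P` is promised. -/
def Wr (_ : List A → Prop) : Type := List A

instance {P : List A → Prop} : Enc A (Wr P) := ⟨fun _ => 0, fun x y => y = x ∧ P x⟩

/-- The word. -/
def Wr.val {P : List A → Prop} (y : Wr P) : Inp A := y

/-- The word with its promise. -/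
def Wr.mk (P : List A → Prop) (y : Inp A) : Wr P := y

theorem sp_val {P : List A → Prop} {B : Bud A} : SP B fun y : Wr P => y.val :=
  SP.of_CF (CF.var 0) (fun _ _ h => h.1) fun _ _ h => h

theorem sp_mk {P : List A → Prop} {B : Bud A} (h : ∀ x, P x) : SP B fun y : Inp A => Wr.mk P y :=
  SP.of_CF (CF.var 0) (fun x _ e => ⟨e, h x⟩) fun _ _ h => h

/-! ### Padded inputs -/

/-- The part of the word before the first padding symbol. -/
def strip : List (Option A) → List A
  | [] => []
  | none :: _ => []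
  | some a :: y => a :: strip y

/-- The padding symbol is read as the right endmarker. -/
def un : InSym (Option A) → InSym A
  | .first => .first
  | .last => .last
  | .letter none => .last
  | .letter (some a) => .letter a

/-- The test for the right endmarker. -/
def isLast : InSym A → Bool
  | .last => true
  | _ => false

theorem strip_pad (x : List A) (k : ℕ) : strip (x.map some ++ List.replicate k none) = x := by
  induction x with
  | nil => cases k <;> rfl
  | cons a x ih => rw [List.map_cons, List.cons_append, strip, ih]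

theorem strip_length_le (y : List (Option A)) : (strip y).length ≤ y.length := by
  induction y with
  | nil => exact le_rfl
  | cons a y ih =>
    cases a
    · exact Nat.zero_le _
    · exact Nat.succ_le_succ ih

theorem un_inAt (y : List (Option A)) : ∀ p ≤ (strip y).length + 1,
    un (inAt y p) = inAt (strip y) p := by
  intro p hp
  cases p with
  | zero => rfl
  | succ p =>
    induction y generalizing p with
    | nil => rfl
    | cons a y ih =>
      cases a with
      | none =>
        obtain rfl : p = 0 := by simpa [strip] using hp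
        rfl
      | some a =>
        cases p with
        | zero => rfl
        | succ p => exact ih p (by simpa [strip] using hp)

theorem isLast_inAt (x : List A) (p : ℕ) : isLast (inAt x p) = true ↔ x.length < p := by
  cases p with
  | zero => simp [inAt, isLast]
  | succ p =>
    rcases lt_or_ge p x.length with h | h
    · simp [inAt, isLast, List.getElem?_eq_getElem h]
      omega
    · simp [inAt, isLast, List.getElem?_eq_none h]
      omega

/-- The program which ignores the padding. -/
def trP : CProg A → CProg (Option A)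
  | .skip => .skip
  | .inc i => .inc i
  | .dec i => .dec i
  | .left => .left
  | .right => .ifin (fun s => isLast (un s)) .skip .right
  | .seq p q => .seq (trP p) (trP q)
  | .ifz i p q => .ifz i (trP p) (trP q)
  | .ifin t p q => .ifin (fun s => t (un s)) (trP p) (trP q)
  | .loop i p => .loop i (trP p)

theorem trP_eval {y : List (Option A)} {B : ℕ} {p : CProg A} {c c' : ℕ × (ℕ → ℕ)}
    (h : CEval (strip y) B p c c') (hc : c.1 ≤ (strip y).length + 1) :
    CEval y B (trP p) c c' ∧ c'.1 ≤ (strip y).length + 1 := by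
  induction h with
  | skip c => exact ⟨.skip c, hc⟩
  | inc i h s hB => exact ⟨.inc i h s hB, hc⟩
  | dec i h s => exact ⟨.dec i h s, hc⟩
  | left h s => exact ⟨.left h s, (Nat.sub_le _ _).trans hc⟩
  | right h s =>
    refine ⟨?_, min_le_right _ _⟩
    have h1 := strip_length_le y
    have h2 : h ≤ (strip y).length + 1 := hc
    by_cases e : (strip y).length < h
    · rw [min_eq_right (by omega), show (strip y).length + 1 = h by omega]
      exact .ifin_true (by rw [un_inAt y _ hc]; exact (isLast_inAt _ _).2 e) (.skip _)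
    · have h3 := CEval.right (x := y) (B := B) h s
      rw [min_eq_left (by omega)] at h3 ⊢
      exact .ifin_false (by
        rw [un_inAt y _ hc]
        exact Bool.eq_false_iff.2 fun e' => e ((isLast_inAt _ _).1 e')) h3
  | seq _ _ ih ih' => exact ⟨.seq (ih hc).1 (ih' (ih hc).2).1, (ih' (ih hc).2).2⟩
  | ifz_zero h _ ih => exact ⟨.ifz_zero h (ih hc).1, (ih hc).2⟩
  | ifz_pos h _ ih => exact ⟨.ifz_pos h (ih hc).1, (ih hc).2⟩
  | ifin_true h _ ih => exact ⟨.ifin_true (by rw [un_inAt y _ hc]; exact h) (ih hc).1, (ih hc).2⟩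
  | ifin_false h _ ih => exact ⟨.ifin_false (by rw [un_inAt y _ hc]; exact h) (ih hc).1, (ih hc).2⟩
  | loop_zero h => exact ⟨.loop_zero h, hc⟩
  | loop_pos h _ _ ih ih' => exact ⟨.loop_pos h (ih hc).1 (ih' (ih hc).2).1, (ih' (ih hc).2).2⟩

theorem cmp_strip {B : List A → ℕ} {B' : List (Option A) → ℕ}
    {R : List A → (ℕ → ℕ) → ℕ → Prop} (H : Cmp B R) (hB : ∀ y, B (strip y) ≤ B' y) :
    Cmp B' fun y v z => R (strip y) v z := by
  obtain ⟨c, H⟩ := H
  refine ⟨c, fun loc o hl => ?_⟩
  obtain ⟨p, hp⟩ := H loc o hl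
  refine ⟨.seq (rewind o) (trP p), fun y h s b z h1 h2 h3 h4 => ?_⟩
  obtain ⟨h', E⟩ := hp (strip y) 0 s b z h1 h2 ((hB y).trans h3) h4
  exact ⟨h', .seq (rewind_eval o h s (h1 o le_rfl) (pb_pos _ _)) (trP_eval E (Nat.zero_le _)).1⟩

theorem sp_strip {B : Bud A} {B' : Bud (Option A)} {f : Inp A × ℕ × ℕ → ℕ} (hf : SP B f)
    (hB : ∀ y, B.b (strip y) ≤ B'.b y) :
    SP B' fun q : Inp (Option A) × ℕ × ℕ => f (strip q.1, q.2) := by
  refine ⟨fun _ _ _ => trivial, (cmp_strip hf.2 hB).mono ?_⟩
  rintro y v z ⟨⟨y', j⟩, ⟨h0, -⟩, h1, h2⟩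
  obtain rfl : y' = y := h0
  exact ⟨(strip y', j), ⟨rfl, trivial, trivial⟩, h1, h2⟩

theorem sp_strip_len {B' : Bud (Option A)} (hB : ∀ y, y.length ≤ B'.b y) :
    SP B' fun y : Inp (Option A) => (strip y).length :=
  (sp_strip (B := ⟨List.length⟩) (f := fun q => q.1.length) (Red.sp_len (fun _ => le_rfl) SP.fst')
    fun y => (strip_length_le y).trans (hB y)).comp (SP.id.pair (SP.const ((0, 0) : ℕ × ℕ)))

/-! ### Outputs -/

theorem bval_lt (l : List Bool) : bval l + 2 ≤ 2 ^ (l.length + 1) := by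
  induction l with
  | nil => simp [bval]
  | cons b l ih =>
    rw [List.length_cons, pow_succ]
    cases b
    · rw [bval_cons_false]
      omega
    · rw [bval_cons_true]
      omega

theorem sum_tapeOf (l : List Bool) :
    2 ^ l.length * ∑ j ∈ range l.length,
      (if tapeOf l ((j : ℤ) + 1) = some true then (1 : ℝ) / 2 ^ (j + 1) else 0) =
      bval l + 1 - 2 ^ l.length := by
  induction l with
  | nil => simp [bval]
  | cons b l ih =>
    have e : ∑ j ∈ range l.length,
        (if tapeOf (b :: l) ((j : ℤ) + 1) = some true then (1 : ℝ) / 2 ^ (j + 1) else 0) =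
        ∑ j ∈ range l.length,
          if tapeOf l ((j : ℤ) + 1) = some true then (1 : ℝ) / 2 ^ (j + 1) else 0 :=
      sum_congr rfl fun j hj => by
        have := mem_range.1 hj
        rw [tapeOf, update_of_ne (by omega)]
    rw [List.length_cons, sum_range_succ, e, tapeOf, update_self, pow_succ, mul_add,
      mul_right_comm, ih]
    cases b
    · rw [bval_cons_false, if_neg (by simp)]
      push_cast
      ring
    · rw [bval_cons_true, if_pos rfl]
      push_cast
      field_simp
      ring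

theorem tsum_tapeOf {l : List Bool} {t v : ℕ} (hv : v < 2 ^ t) (h : bval l = 2 ^ t - 1 + v) :
    (∑' j : ℕ, if tapeOf l ((j : ℤ) + 1) = some true then (1 : ℝ) / 2 ^ (j + 1) else 0) =
      v / 2 ^ t := by
  have h0 : 1 ≤ 2 ^ t := Nat.one_le_two_pow
  have h1 := two_pow_length_le l
  have h2 := bval_lt l
  have h3 : l.length < t + 1 := (Nat.pow_lt_pow_iff_right (a := 2) (by omega)).1 (by
    rw [pow_succ]; omega)
  have h4 : t < l.length + 1 := (Nat.pow_lt_pow_iff_right (a := 2) (by omega)).1 (by omega)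
  obtain rfl : t = l.length := by omega
  rw [tsum_eq_sum (s := range l.length) fun j hj => by
      rw [tapeOf_above l _ (by have := mem_range.not.1 hj; omega), if_neg (by simp)],
    eq_div_iff (by positivity), mul_comm, sum_tapeOf]
  have h5 : bval l + 1 = 2 ^ l.length + v := by omega
  have h6 : (bval l : ℝ) + 1 = 2 ^ l.length + v := by exact_mod_cast h5
  linarith

/-- A counter program is simulated by a machine which has the register `0` on a tape at the end. -/
theorem exists_out (p : CProg A) : ∃ (D : MultiTape A) (i : D.Tape) (e : D.Sym) (C : ℕ),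
    ∀ (x : List A) (B : ℕ) (c' : ℕ × (ℕ → ℕ)) (t v : ℕ), CEval x B p (0, fun _ => 0) c' →
      v < 2 ^ t → c'.2 0 = 2 ^ t - 1 + v →
      (∃ τ, D.act x (D.conf x τ) = none ∧ out D i e (D.conf x τ) = v / 2 ^ t) ∧
      D.UsesAtMost x ((C * (Nat.log 2 B + 1) : ℕ) : ℝ) := by
  set k := p.bound + 1 with hk
  refine ⟨((p.frag k).final fun r => (r (regTape k 0)).isSome).toMT {.inr true},
    some ⟨0, by omega⟩, some true, 2 * Fintype.card (Option (Fin k)), fun x B c' t v h hv hc => ?_⟩
  obtain ⟨St, hr, hrun⟩ := h.run (S := Nat.log 2 B + 1) (k := k) le_rfl (by omega)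
    (St := fun _ => []) ⟨rfl, fun _ => rfl⟩ (fun _ => Nat.zero_le _)
  obtain ⟨-, F, hF, hF'⟩ := Run.toMT (fun r => (r (regTape k 0)).isSome) hrun
  obtain ⟨τ, h1, -⟩ := (hrun.final fun r => (r (regTape k 0)).isSome).iterate {.inr true}
  have h2 : (((p.frag k).final fun r => (r (regTape k 0)).isSome).toMT {.inr true}).conf x τ = _ :=
    h1
  refine ⟨⟨τ, by rw [h2]; rfl, ?_⟩, F, hF.trans ?_, hF'⟩
  · rw [h2, ← tsum_tapeOf hv ((hr.2 ⟨0, by omega⟩).trans hc)]
    unfold out
    refine tsum_congr fun j => ?_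
    congr
  · have : Fintype.card (Option (Fin k)) * (Nat.log 2 B + 1 + 1) ≤
        2 * Fintype.card (Option (Fin k)) * (Nat.log 2 B + 1) := by
      rw [mul_comm 2, mul_assoc]
      exact Nat.mul_le_mul_left _ (by omega)
    exact_mod_cast this

theorem log_le_of_le_pow {b Z c : ℕ} (h : b + 2 ≤ Z ^ c) :
    ((Nat.log 2 (b + 2) : ℕ) : ℝ) ≤ 2 * c * Real.log Z ∧ 2 ^ Nat.log 2 (b + 2) ≤ Z ^ c := by
  have h0 := (Nat.pow_log_le_self 2 (x := b + 2) (by omega)).trans h
  refine ⟨?_, h0⟩
  have h1 : (2 : ℝ) ^ Nat.log 2 (b + 2) ≤ (Z : ℝ) ^ c := by exact_mod_cast h0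
  have h4 := Real.log_le_log (by positivity) h1
  rw [Real.log_pow, Real.log_pow] at h4
  have h5 := Real.log_two_gt_d9
  have h6 : (0 : ℝ) ≤ Nat.log 2 (b + 2) := Nat.cast_nonneg _
  nlinarith

/-- A fraction which is computed with bounded registers is the output of a machine with small
space and time. -/
theorem sp_out {P : List A → Prop} {B : Bud A} {t v : List A → ℕ} (hB : ∀ x, x.length ≤ B.b x)
    (ht : SP B fun y : Wr P => 2 ^ t y.val) (hv : SP B fun y : Wr P => v y.val) (c : ℕ) :
    ∃ (D : MultiTape A) (i : D.Tape) (e : D.Sym) (C : ℕ), ∀ (x : List A) (Z : ℕ), P x →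
      v x < 2 ^ t x → 2 ≤ Z → B.b x + 2 ≤ Z ^ c → D.UsesAtMost x (C * Real.log Z) ∧
      D.act x (D.conf x (Z ^ C)) = none ∧ out D i e (D.conf x (Z ^ C)) = v x / 2 ^ t x := by
  obtain ⟨c1, hc⟩ := ((ht.sub (SP.const 1)).add hv).2
  obtain ⟨p, hp⟩ := hc (fun _ => 0) 1 fun _ => by omega
  obtain ⟨D, i, e, C, hD⟩ := exists_out (.seq p (mov 1 0))
  set κ := Nat.card D.Sym + Nat.card D.Tape
  refine ⟨D, i, e, Nat.card D.State + c + c * (C * (2 * c1 + 1) * κ) + 2 * c * (C * (2 * c1 + 1)),
    fun x Z hx h1 hZ h2 => ?_⟩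
  obtain ⟨h', E⟩ := hp x 0 (fun _ => 0) (B.b x) (2 ^ t x - 1 + v x) (fun _ _ => rfl)
    (fun _ => Nat.zero_le _) le_rfl ⟨Wr.mk P x, ⟨rfl, hx⟩, rfl, rfl⟩
  have h3 := E.le_max 1
  obtain ⟨⟨τ, h4, h5⟩, F, h6, h7⟩ := hD x (pb c1 (B.b x)) _ (t x) (v x)
    (.seq E (mov_eval (by omega) h' _ (by simpa using h3))) h1 (by simp)
  have h8 : F.card ≤ C * (2 * c1 + 1) * Nat.log 2 (B.b x + 2) := by
    rw [mul_assoc]
    exact (Nat.cast_le.1 h6).trans (Nat.mul_le_mul_left _ (log_pb_le c1 _))
  obtain ⟨h9, h10⟩ := log_le_of_le_pow h2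
  obtain ⟨σ, h11, h12⟩ := Easy.halt_le D x h7 ⟨τ, h4⟩
  have h13 : σ ≤ Z ^ (Nat.card D.State + c + c * (C * (2 * c1 + 1) * κ) +
      2 * c * (C * (2 * c1 + 1))) := by
    refine h11.trans (le_trans ?_ (Nat.pow_le_pow_right (by omega) (Nat.le_add_right _ _)))
    rw [pow_add Z, pow_add Z, pow_mul Z]
    refine Nat.mul_le_mul (Nat.mul_le_mul (Nat.lt_two_pow_self.le.trans (Nat.pow_le_pow_left hZ _))
      (by have := hB x; omega)) (le_trans ?_ (Nat.pow_le_pow_left h10 _))
    rw [← pow_mul]
    refine Nat.pow_le_pow_right (by omega) ((Nat.mul_le_mul_right _ h8).trans (le_of_eq ?_))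
    ring
  have h14 : D.conf x σ = D.conf x τ := by
    rcases le_total τ σ with h | h
    · exact Easy.conf_of_halted D x h4 h
    · exact (Easy.conf_of_halted D x h12 h).symm
  rw [Easy.conf_of_halted D x h12 h13, h14]
  refine ⟨⟨F, ?_, h7⟩, h4, h5⟩
  have h15 : (F.card : ℝ) ≤ (C * (2 * c1 + 1) : ℕ) * (Nat.log 2 (B.b x + 2) : ℕ) := by
    exact_mod_cast h8
  have h16 : 0 ≤ Real.log Z := Real.log_natCast_nonneg _
  refine h15.trans ((mul_le_mul_of_nonneg_left h9 (Nat.cast_nonneg _)).trans ?_)
  rw [← mul_assoc]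
  refine mul_le_mul_of_nonneg_right ?_ h16
  exact_mod_cast (le_of_eq (mul_comm _ _)).trans (Nat.le_add_left _ _)

end Vale.Agent.N313
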